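import Claimed.Agent.R282.S2AB.AN2.Open

/-!
# Row 282, package AN2, file 5: assembly (O5) and the contracts K1, K2, K2', K3, K3', K3'', T2B-2 in the form of `S2AB/Contracts.lean`

Architect: helper178.  Everything here is proved from the leaves of `AN2/{Basic,Normal,Unique,Open}.lean`.
-/

set_option autoImplicit false

namespace Claimed.Agent.R282

open Matrix

variable {n : ℕ}

theorem an2_dist_add_smul (x v : Vec n) (t : ℝ) (ht : 0 ≤ t) : dist (x + t • v) x = t * ‖v‖ := by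
  rw [dist_eq_norm, add_sub_cancel_left, norm_smul, Real.norm_eq_abs, abs_of_nonneg ht]

/-- O5, `n ≥ 2` -/
theorem an2_open_approx_big (hn : 2 ≤ n) (lam mu xi : Vec n) (hl : Dom lam) (hm : Dom mu) (hx : Dom xi)
    (h : MomentD lam mu xi) (ε : ℝ) (hε : 0 < ε) :
    ∃ lam' mu' xi' : Vec n, dist lam' lam < ε ∧ dist mu' mu < ε ∧ dist xi' xi < ε ∧
      ∃ δ > 0, ∀ a b c : Vec n, dist a lam' < δ → dist b mu' < δ → dist c xi' < δ →
        Ty.D.Reg a ∧ Ty.D.Reg b ∧ Ty.D.Reg c ∧ MomentD a b c := by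
  obtain ⟨X, Y, hX, hY, hZ⟩ := (an2_moment_iff _ _ _).1 h
  obtain ⟨η₁, hη₁, c₁⟩ := an2_label_continuous X lam hl hX (ε / 2) (by positivity)
  obtain ⟨η₂, hη₂, c₂⟩ := an2_label_continuous Y mu hm hY (ε / 2) (by positivity)
  obtain ⟨η₃, hη₃, c₃⟩ := an2_label_continuous (X + Y) xi hx hZ (ε / 2) (by positivity)
  set η : ℝ := min η₁ (min η₂ η₃) with hη
  have hηpos : 0 < η := lt_min hη₁ (lt_min hη₂ hη₃)
  have hnpos : (0 : ℝ) < (n : ℝ) + 1 := by positivity
  obtain ⟨s, hs0, hs1, hs⟩ := an2_triv_small (an2X0 n) (an2Y0 n) X Y (an2_triv0 hn) (η / ((n : ℝ) + 1))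
    (by positivity)
  have hsn : s * ((n : ℝ) + 1) < η := (lt_div_iff₀ hnpos).1 hs1
  -- the perturbed matrices
  have sX : (X + s • an2X0 n).transpose = -(X + s • an2X0 n) := by
    rw [Matrix.transpose_add, Matrix.transpose_smul, an2_orb_skew hX, an2X0_skew, smul_neg, neg_add]
  have sY : (Y + s • an2Y0 n).transpose = -(Y + s • an2Y0 n) := by
    rw [Matrix.transpose_add, Matrix.transpose_smul, an2_orb_skew hY, an2Y0_skew, smul_neg, neg_add]
  have sZ : ((X + s • an2X0 n) + (Y + s • an2Y0 n)).transpose = -((X + s • an2X0 n) + (Y + s • an2Y0 n)) := by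
    rw [Matrix.transpose_add, sX, sY]
    abel
  obtain ⟨a₀, da, oa⟩ := an2_normal_form _ sX
  obtain ⟨b₀, db, ob⟩ := an2_normal_form _ sY
  obtain ⟨c₀, dc, oc⟩ := an2_normal_form _ sZ
  have ha : dist a₀ lam < ε / 2 := by
    refine c₁ _ a₀ da oa fun p q => ?_
    have e : (X + s • an2X0 n) p q - X p q = s * an2X0 n p q := by simp
    rw [e, abs_mul, abs_of_pos hs0]
    have := an2X0_bound (n := n) p q
    calc s * |an2X0 n p q| ≤ s * ((n : ℝ) + 1) := by gcongr; linarith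
      _ < η := hsn
      _ ≤ η₁ := min_le_left _ _
  have hb : dist b₀ mu < ε / 2 := by
    refine c₂ _ b₀ db ob fun p q => ?_
    have e : (Y + s • an2Y0 n) p q - Y p q = s * an2Y0 n p q := by simp
    rw [e, abs_mul, abs_of_pos hs0]
    have := an2Y0_bound (n := n) p q
    have hn0 : (0 : ℝ) ≤ n := Nat.cast_nonneg n
    calc s * |an2Y0 n p q| ≤ s * ((n : ℝ) + 1) := by gcongr; linarith
      _ < η := hsn
      _ ≤ η₂ := (min_le_right _ _).trans (min_le_left _ _)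
  have hc : dist c₀ xi < ε / 2 := by
    refine c₃ _ c₀ dc oc fun p q => ?_
    have e : ((X + s • an2X0 n) + (Y + s • an2Y0 n)) p q - (X + Y) p q = s * (an2X0 n p q + an2Y0 n p q) := by
      simp only [Matrix.add_apply, Matrix.smul_apply, smul_eq_mul]
      ring
    rw [e, abs_mul, abs_of_pos hs0]
    have h1 := an2X0_bound (n := n) p q
    have h2 := an2Y0_bound (n := n) p q
    have h3 := abs_add_le (an2X0 n p q) (an2Y0 n p q)
    calc s * |an2X0 n p q + an2Y0 n p q| ≤ s * ((n : ℝ) + 1) := by gcongr; linarith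
      _ < η := hsn
      _ ≤ η₃ := (min_le_right _ _).trans (min_le_right _ _)
  obtain ⟨δ₀, hδ₀, hopen⟩ := an2_open _ _ a₀ b₀ c₀ oa ob oc hs
  -- the regular centre
  set N : ℝ := ‖rhoV n‖ + 1 with hN
  have hNpos : 0 < N := by positivity
  set t : ℝ := min (ε / 2) (δ₀ / 2) / N with ht
  have htpos : 0 < t := by positivity
  have htN : t * ‖rhoV n‖ < min (ε / 2) (δ₀ / 2) := by
    have h1 : t * N = min (ε / 2) (δ₀ / 2) := by rw [ht]; field_simp
    have h2 : t * ‖rhoV n‖ < t * N := by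
      apply mul_lt_mul_of_pos_left _ htpos
      rw [hN]; linarith
    linarith
  have htε : t * ‖rhoV n‖ < ε / 2 := htN.trans_le (min_le_left _ _)
  have htδ : t * ‖rhoV n‖ < δ₀ / 2 := htN.trans_le (min_le_right _ _)
  obtain ⟨δ₁, hδ₁, r₁⟩ := an2_reg_open _ (an2_reg_add a₀ da t htpos)
  obtain ⟨δ₂, hδ₂, r₂⟩ := an2_reg_open _ (an2_reg_add b₀ db t htpos)
  obtain ⟨δ₃, hδ₃, r₃⟩ := an2_reg_open _ (an2_reg_add c₀ dc t htpos)
  have key : ∀ (y y₀ z : Vec n), dist y₀ z < ε / 2 → dist (y₀ + t • rhoV n) z < ε := by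
    intro y y₀ z hz
    calc dist (y₀ + t • rhoV n) z ≤ dist (y₀ + t • rhoV n) y₀ + dist y₀ z := dist_triangle _ _ _
      _ < ε / 2 + ε / 2 := by rw [an2_dist_add_smul _ _ _ htpos.le]; linarith
      _ = ε := by ring
  have key2 : ∀ (y y₀ : Vec n), dist y (y₀ + t • rhoV n) < δ₀ / 2 → dist y y₀ < δ₀ := by
    intro y y₀ hy
    calc dist y y₀ ≤ dist y (y₀ + t • rhoV n) + dist (y₀ + t • rhoV n) y₀ := dist_triangle _ _ _
      _ < δ₀ / 2 + δ₀ / 2 := by rw [an2_dist_add_smul _ _ _ htpos.le]; linarith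
      _ = δ₀ := by ring
  refine ⟨a₀ + t • rhoV n, b₀ + t • rhoV n, c₀ + t • rhoV n, key 0 _ _ ha, key 0 _ _ hb, key 0 _ _ hc,
    min (δ₀ / 2) (min δ₁ (min δ₂ δ₃)), by positivity, fun a b c h1 h2 h3 => ?_⟩
  have l0 : min (δ₀ / 2) (min δ₁ (min δ₂ δ₃)) ≤ δ₀ / 2 := min_le_left _ _
  have l1 : min (δ₀ / 2) (min δ₁ (min δ₂ δ₃)) ≤ δ₁ := (min_le_right _ _).trans (min_le_left _ _)
  have l2 : min (δ₀ / 2) (min δ₁ (min δ₂ δ₃)) ≤ δ₂ :=
    (min_le_right _ _).trans ((min_le_right _ _).trans (min_le_left _ _))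
  have l3 : min (δ₀ / 2) (min δ₁ (min δ₂ δ₃)) ≤ δ₃ :=
    (min_le_right _ _).trans ((min_le_right _ _).trans (min_le_right _ _))
  exact ⟨r₁ a (h1.trans_le l1), r₂ b (h2.trans_le l2), r₃ c (h3.trans_le l3),
    hopen a b c (key2 _ _ (h1.trans_le l0)) (key2 _ _ (h2.trans_le l0)) (key2 _ _ (h3.trans_le l0))⟩

theorem an2_reg_small (hn : n ≤ 1) (x : Vec n) : Ty.D.Reg x := by
  intro i j hij
  have h1 : (i : ℕ) < j := hij
  have h2 := j.2
  omega

/-- **T2B-2** in the form of `S2AB/Contracts.lean` -/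
theorem an2_moment_open_approx (lam mu xi : Vec n) (hl : Ty.D.Dom lam) (hm : Ty.D.Dom mu)
    (hx : Ty.D.Dom xi) (h : Ty.D.Moment lam mu xi) (ε : ℝ) (hε : 0 < ε) :
    ∃ lam' mu' xi' : Vec n, dist lam' lam < ε ∧ dist mu' mu < ε ∧ dist xi' xi < ε ∧
      lam' + mu' - xi' ∈ Ty.D.ss n ∧
      ∃ δ > 0, ∀ a b c : Vec n, dist a lam' < δ → dist b mu' < δ → dist c xi' < δ →
        a + b - c ∈ Ty.D.ss n → Ty.D.Reg a ∧ Ty.D.Reg b ∧ Ty.D.Reg c ∧ Ty.D.Moment a b c := by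
  rcases Nat.lt_or_ge n 2 with hn | hn
  · have hn1 : n ≤ 1 := by omega
    refine ⟨lam, mu, xi, by simpa using hε, by simpa using hε, by simpa using hε,
      an2_moment_central _ _ _ h, 1, one_pos, fun a b c _ _ _ hs => ?_⟩
    rw [an2_ss_bot hn1, Submodule.mem_bot, sub_eq_zero] at hs
    exact ⟨an2_reg_small hn1 a, an2_reg_small hn1 b, an2_reg_small hn1 c, an2_moment_of_add a b c hs⟩
  · obtain ⟨lam', mu', xi', h1, h2, h3, δ, hδ, H⟩ := an2_open_approx_big hn lam mu xi hl hm hx h ε hε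
    refine ⟨lam', mu', xi', h1, h2, h3, ?_, δ, hδ, fun a b c ha hb hc _ => H a b c ha hb hc⟩
    rw [an2_ss_top hn]
    exact Submodule.mem_top

end Claimed.Agent.R282
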