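import Claimed.Agent.R282.S2AB.Defs
import Claimed.Agent.R282.Sched.Block

/-!
# Row 282, Sec. 2, package AN2 (SPEC + OPEN), file 1: `Jmat`, `SO(2n)`, Weyl matrices, the small contracts

Architect: helper178.  All names carry the prefix `an2_` / `An2`.  Statements FROZEN; helper lemmas: same prefix + the letter of the leaf.  No paper.
LEAVES (one per section): L-AN2-J (section `J`), L-AN2-SO (section `SO`), L-AN2-W (section `W`), L-AN2-K (section `K`).
Every leaf may use all other statements of `S2AB/AN2/*.lean`, `Sched/*.lean` as black boxes (respect the import order).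

Index set `Ix n = Fin n × Fin 2`.  `Jmat x` has the blocks `[[0, x i], [- x i, 0]]`:  `J e_(i,1) = x i e_(i,0)`, `J e_(i,0) = - x i e_(i,1)`.
`An2Orb X x` : `X` lies in the `SO(2n)`-orbit of `Jmat x`.

ROUTES.
* section `J`: `ext ⟨i, p⟩ ⟨j, q⟩; fin_cases p <;> fin_cases q <;> simp [Jmat, Matrix.mul_apply, Fintype.sum_prod_type, ...]`, `by_cases i = j`.
* `an2_so_entry_le`: `1 = (g gᵀ) p p = ∑ q, (g p q)^2 ≥ (g p q)^2`.   `an2_so_isCompact`: closed (`g gᵀ = 1`, `det g = 1` are closed conditions: `Continuous.matrix_mul`, `Continuous.matrix_transpose`, `Continuous.matrix_det`)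
  and contained in the compact box `Set.pi univ (fun _ => Set.pi univ fun _ => Icc (-1) 1)` (`isCompact_univ_pi`).
* `an2_frob_conj`: `∑∑ (M p q)^2 = trace (Mᵀ M)`, `trace ((g X gᵀ)ᵀ (g X gᵀ)) = trace (g Xᵀ X gᵀ) = trace (Xᵀ X gᵀ g)` (`Matrix.trace_mul_cycle`, `gᵀ g = 1` from `g gᵀ = 1`: `Matrix.mul_eq_one_comm`).
* `an2P w` = (permutation matrix of `σ × id`) * (diagonal of signs).  `det`: `Matrix.det_permutation`/`Matrix.det_permute`, `Equiv.Perm.sign_prodCongrLeft` (sign = `(sign σ)^2 = 1`), `Matrix.det_diagonal`,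
  `∏ p, c p = ∏ i, sgnB (w.s i) = (-1)^(card of the true's) = 1` (`w.even`).
* `an2_ss_top`: `e_i = ((e_i + e_j) + (e_i - e_j)) / 2` for some `j ≠ i`; `an2_ss_bot`: `RootD n` is empty for `n ≤ 1` (`i ≠ j` in a subsingleton).
* `an2_conj_one`: for a `2 × 2` matrix `g J gᵀ = det g • J` (index type `Fin 1 × Fin 2`: expand all sums, `Matrix.det` via reindexing to `Fin 2`, or: from `g gᵀ = 1`, `det g = 1` get `g = [[p, q], [-q, p]]`).
* `an2_moment_central`: `n ≥ 2`: `an2_ss_top`; `n = 0`: subsingleton; `n = 1`: `an2_conj_one`, `an2_J_injective`, additivity.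
-/

set_option autoImplicit false

namespace Claimed.Agent.R282

open Matrix

variable {n : ℕ}

/-- real `2n × 2n` matrices -/
abbrev An2M (n : ℕ) := Matrix (Ix n) (Ix n) ℝ

/-- `X` lies in the `SO(2n)`-orbit of `Jmat x` -/
def An2Orb (X : An2M n) (x : Vec n) : Prop :=
  ∃ g : Matrix.specialOrthogonalGroup (Ix n) ℝ, X = g.1 * Jmat x * g.1.transpose

theorem an2_moment_iff (a b c : Vec n) :
    MomentD a b c ↔ ∃ X Y : An2M n, An2Orb X a ∧ An2Orb Y b ∧ An2Orb (X + Y) c := by
  constructor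
  · rintro ⟨g, h, k, e⟩
    exact ⟨_, _, ⟨g, rfl⟩, ⟨h, rfl⟩, ⟨k, e⟩⟩
  · rintro ⟨X, Y, ⟨g, rfl⟩, ⟨h, rfl⟩, ⟨k, e⟩⟩
    exact ⟨g, h, k, e⟩

section J

theorem an2_J_01 (x : Vec n) (i : Fin n) : Jmat x (i, 0) (i, 1) = x i := by
  simp [Jmat]

theorem an2_J_10 (x : Vec n) (i : Fin n) : Jmat x (i, 1) (i, 0) = - x i := by
  simp [Jmat]

theorem an2_J_diag (x : Vec n) (i j : Fin n) (p : Fin 2) : Jmat x (i, p) (j, p) = 0 := by
  fin_cases p <;> simp [Jmat]

theorem an2_J_ne (x : Vec n) {i j : Fin n} (h : i ≠ j) (p q : Fin 2) : Jmat x (i, p) (j, q) = 0 := by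
  simp [Jmat, h]

theorem an2_J_add (x y : Vec n) : Jmat (x + y) = Jmat x + Jmat y := by
  ext p q
  simp only [Jmat, Matrix.add_apply, Pi.add_apply]
  split_ifs <;> ring

theorem an2_J_sub (x y : Vec n) : Jmat (x - y) = Jmat x - Jmat y := by
  ext p q
  simp only [Jmat, Matrix.sub_apply, Pi.sub_apply]
  split_ifs <;> ring

theorem an2_J_smul (r : ℝ) (x : Vec n) : Jmat (r • x) = r • Jmat x := by
  ext p q
  simp only [Jmat, Matrix.smul_apply, Pi.smul_apply, smul_eq_mul]
  split_ifs <;> ring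

theorem an2_J_zero : Jmat (0 : Vec n) = 0 := by
  ext p q
  simp [Jmat]

theorem an2_J_transpose (x : Vec n) : (Jmat x).transpose = - Jmat x := by
  ext ⟨i, p⟩ ⟨j, q⟩
  by_cases h : i = j
  · subst h
    fin_cases p <;> fin_cases q <;> simp [Jmat]
  · simp [Jmat, h, Ne.symm h]

theorem an2_J_injective : Function.Injective (Jmat : Vec n → An2M n) := by
  intro x y h
  funext i
  have := congrFun (congrFun h (i, 0)) (i, 1)
  rwa [an2_J_01, an2_J_01] at this

theorem an2_J_continuous : Continuous (Jmat : Vec n → An2M n) := by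
  refine continuous_pi fun p => continuous_pi fun q => ?_
  simp only [Jmat]
  split_ifs
  · exact (continuous_apply p.1).mul continuous_const
  · exact (continuous_apply p.1).mul continuous_const
  · exact (continuous_apply p.1).mul continuous_const
  · exact continuous_const

/-- left multiplication by `Jmat` -/
theorem an2_J_mul_apply (x : Vec n) (M : An2M n) (i : Fin n) (q : Ix n) :
    (Jmat x * M) (i, 0) q = x i * M (i, 1) q ∧ (Jmat x * M) (i, 1) q = - x i * M (i, 0) q := by
  constructor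
  · rw [Matrix.mul_apply, Finset.sum_eq_single (i, 1)]
    · rw [an2_J_01]
    · rintro ⟨j, r⟩ - hne
      by_cases h : i = j
      · subst h
        have hr : r = 0 := by
          fin_cases r
          · rfl
          · exact absurd rfl hne
        subst hr
        rw [an2_J_diag, zero_mul]
      · rw [an2_J_ne x h, zero_mul]
    · intro h
      exact absurd (Finset.mem_univ _) h
  · rw [Matrix.mul_apply, Finset.sum_eq_single (i, 0)]
    · rw [an2_J_10]
    · rintro ⟨j, r⟩ - hne
      by_cases h : i = j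
      · subst h
        have hr : r = 1 := by
          fin_cases r
          · exact absurd rfl hne
          · rfl
        subst hr
        rw [an2_J_diag, zero_mul]
      · rw [an2_J_ne x h, zero_mul]
    · intro h
      exact absurd (Finset.mem_univ _) h

/-- right multiplication by `Jmat` -/
theorem an2_mul_J_apply (x : Vec n) (M : An2M n) (p : Ix n) (j : Fin n) :
    (M * Jmat x) p (j, 0) = - x j * M p (j, 1) ∧ (M * Jmat x) p (j, 1) = x j * M p (j, 0) := by
  constructor
  · rw [Matrix.mul_apply, Finset.sum_eq_single (j, 1)]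
    · rw [an2_J_10, mul_comm]
    · rintro ⟨i, r⟩ - hne
      by_cases h : i = j
      · subst h
        have hr : r = 0 := by
          fin_cases r
          · rfl
          · exact absurd rfl hne
        subst hr
        rw [an2_J_diag, mul_zero]
      · rw [an2_J_ne x h, mul_zero]
    · intro h
      exact absurd (Finset.mem_univ _) h
  · rw [Matrix.mul_apply, Finset.sum_eq_single (j, 0)]
    · rw [an2_J_01, mul_comm]
    · rintro ⟨i, r⟩ - hne
      by_cases h : i = j
      · subst h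
        have hr : r = 1 := by
          fin_cases r
          · exact absurd rfl hne
          · rfl
        subst hr
        rw [an2_J_diag, mul_zero]
      · rw [an2_J_ne x h, mul_zero]
    · intro h
      exact absurd (Finset.mem_univ _) h

theorem an2_J_mul (x y : Vec n) : Jmat x * Jmat y = Matrix.diagonal (fun p : Ix n => - (x p.1 * y p.1)) := by
  ext ⟨i, p⟩ ⟨j, q⟩
  by_cases h : i = j
  · subst h
    fin_cases p <;> fin_cases q
    · show (Jmat x * Jmat y) (i, 0) (i, 0) = _
      rw [(an2_J_mul_apply x _ i _).1, an2_J_10, Matrix.diagonal_apply_eq]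
      ring
    · show (Jmat x * Jmat y) (i, 0) (i, 1) = _
      rw [(an2_J_mul_apply x _ i _).1, an2_J_diag, Matrix.diagonal_apply_ne _ (by simp), mul_zero]
    · show (Jmat x * Jmat y) (i, 1) (i, 0) = _
      rw [(an2_J_mul_apply x _ i _).2, an2_J_diag, Matrix.diagonal_apply_ne _ (by simp), mul_zero]
    · show (Jmat x * Jmat y) (i, 1) (i, 1) = _
      rw [(an2_J_mul_apply x _ i _).2, an2_J_01, Matrix.diagonal_apply_eq]
      ring
  · rw [Matrix.diagonal_apply_ne _ (by simp [h])]
    fin_cases p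
    · show (Jmat x * Jmat y) (i, 0) (j, q) = _
      rw [(an2_J_mul_apply x _ i _).1, an2_J_ne y h, mul_zero]
    · show (Jmat x * Jmat y) (i, 1) (j, q) = _
      rw [(an2_J_mul_apply x _ i _).2, an2_J_ne y h, mul_zero]

theorem an2_J_frob (x : Vec n) : ∑ p, ∑ q, (Jmat x p q) ^ 2 = 2 * ∑ i, (x i) ^ 2 := by
  rw [Fintype.sum_prod_type, Finset.mul_sum]
  refine Finset.sum_congr rfl fun i _ => ?_
  have h : ∀ p : Fin 2, ∑ q : Ix n, (Jmat x (i, p) q) ^ 2 = (x i) ^ 2 := by
    intro p
    rw [Fintype.sum_prod_type, Finset.sum_eq_single i]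
    · rw [Fin.sum_univ_two]
      fin_cases p
      · show (Jmat x (i, 0) (i, 0)) ^ 2 + (Jmat x (i, 0) (i, 1)) ^ 2 = _
        rw [an2_J_diag, an2_J_01]
        ring
      · show (Jmat x (i, 1) (i, 0)) ^ 2 + (Jmat x (i, 1) (i, 1)) ^ 2 = _
        rw [an2_J_diag, an2_J_10]
        ring
    · intro j _ hne
      refine Finset.sum_eq_zero fun q _ => ?_
      rw [an2_J_ne x (Ne.symm hne)]
      ring
    · intro h
      exact absurd (Finset.mem_univ _) h
  rw [Fin.sum_univ_two, h, h]
  ring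

end J

section SO

theorem an2_so_mul_transpose (g : Matrix.specialOrthogonalGroup (Ix n) ℝ) : g.1 * g.1.transpose = 1 := by
  have h := (Matrix.mem_specialOrthogonalGroup_iff.1 g.2).1
  exact (Matrix.mem_orthogonalGroup_iff (Ix n) ℝ).1 h

theorem an2_so_transpose_mul (g : Matrix.specialOrthogonalGroup (Ix n) ℝ) : g.1.transpose * g.1 = 1 :=
  mul_eq_one_comm.1 (an2_so_mul_transpose g)

theorem an2_so_det (g : Matrix.specialOrthogonalGroup (Ix n) ℝ) : g.1.det = 1 :=
  (Matrix.mem_specialOrthogonalGroup_iff.1 g.2).2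

theorem an2_so_mk (g : An2M n) (h : g * g.transpose = 1) (hd : g.det = 1) :
    g ∈ Matrix.specialOrthogonalGroup (Ix n) ℝ :=
  Matrix.mem_specialOrthogonalGroup_iff.2 ⟨(Matrix.mem_orthogonalGroup_iff (Ix n) ℝ).2 h, hd⟩

theorem an2_orth_det (g : An2M n) (h : g * g.transpose = 1) : g.det = 1 ∨ g.det = -1 := by
  have h1 := congrArg Matrix.det h
  rw [Matrix.det_mul, Matrix.det_transpose, Matrix.det_one] at h1
  exact mul_self_eq_one_iff.1 h1

theorem an2_so_entry_le (g : An2M n) (h : g * g.transpose = 1) (p q : Ix n) : |g p q| ≤ 1 := by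
  have h1 := congrFun (congrFun h p) p
  rw [Matrix.mul_apply, Matrix.one_apply_eq] at h1
  have h2 : g p q * g p q ≤ ∑ r, g p r * g.transpose r p :=
    Finset.single_le_sum (f := fun r => g p r * g.transpose r p)
      (fun r _ => mul_self_nonneg (g p r)) (Finset.mem_univ q)
  rw [h1] at h2
  exact abs_le_one_iff_mul_self_le_one.2 h2

theorem an2_so_isCompact : IsCompact {g : An2M n | g ∈ Matrix.specialOrthogonalGroup (Ix n) ℝ} := by
  have hbox : IsCompact (Set.pi Set.univ fun _ : Ix n => Set.pi Set.univ fun _ : Ix n => Set.Icc (-1 : ℝ) 1) :=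
    isCompact_univ_pi fun _ => isCompact_univ_pi fun _ => isCompact_Icc
  refine hbox.of_isClosed_subset ?_ ?_
  · have e : {g : An2M n | g ∈ Matrix.specialOrthogonalGroup (Ix n) ℝ}
        = {g : An2M n | g * g.transpose = 1} ∩ {g : An2M n | g.det = 1} := by
      ext g
      constructor
      · intro hg
        exact ⟨an2_so_mul_transpose ⟨g, hg⟩, an2_so_det ⟨g, hg⟩⟩
      · rintro ⟨h1, h2⟩
        exact an2_so_mk g h1 h2
    rw [e]
    exact (isClosed_eq (continuous_id.matrix_mul continuous_id.matrix_transpose) continuous_const).inter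
      (isClosed_eq continuous_id.matrix_det continuous_const)
  · intro g hg p _ q _
    exact abs_le.1 (an2_so_entry_le g (an2_so_mul_transpose ⟨g, hg⟩) p q)

theorem an2_conj_skew (g X : An2M n) (hX : X.transpose = -X) :
    (g * X * g.transpose).transpose = -(g * X * g.transpose) := by
  rw [Matrix.transpose_mul, Matrix.transpose_mul, Matrix.transpose_transpose, hX, Matrix.neg_mul,
    Matrix.mul_neg, Matrix.mul_assoc]

theorem an2_orb_skew {X : An2M n} {x : Vec n} (h : An2Orb X x) : X.transpose = -X := by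
  obtain ⟨g, rfl⟩ := h
  exact an2_conj_skew _ _ (an2_J_transpose x)

theorem an2_orb_self (x : Vec n) : An2Orb (Jmat x) x :=
  ⟨1, by simp⟩

theorem an2_orb_conj {X : An2M n} {x : Vec n} (h : An2Orb X x) (g : Matrix.specialOrthogonalGroup (Ix n) ℝ) :
    An2Orb (g.1 * X * g.1.transpose) x := by
  obtain ⟨k, rfl⟩ := h
  refine ⟨g * k, ?_⟩
  show g.1 * (k.1 * Jmat x * k.1.transpose) * g.1.transpose = (g.1 * k.1) * Jmat x * (g.1 * k.1).transpose
  rw [Matrix.transpose_mul]
  simp only [Matrix.mul_assoc]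

theorem an2_orb_smul {X : An2M n} {x : Vec n} (h : An2Orb X x) (r : ℝ) : An2Orb (r • X) (r • x) := by
  obtain ⟨g, rfl⟩ := h
  refine ⟨g, ?_⟩
  rw [an2_J_smul, Matrix.mul_smul, Matrix.smul_mul]

theorem an2so_frob_trace (M : An2M n) : ∑ p, ∑ q, (M p q) ^ 2 = Matrix.trace (M.transpose * M) := by
  rw [Matrix.trace, Finset.sum_comm]
  refine Finset.sum_congr rfl fun q _ => ?_
  rw [Matrix.diag_apply, Matrix.mul_apply]
  refine Finset.sum_congr rfl fun p _ => ?_
  rw [Matrix.transpose_apply]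
  ring

theorem an2_frob_conj (g X : An2M n) (h : g * g.transpose = 1) :
    ∑ p, ∑ q, ((g * X * g.transpose) p q) ^ 2 = ∑ p, ∑ q, (X p q) ^ 2 := by
  have h' : g.transpose * g = 1 := mul_eq_one_comm.1 h
  rw [an2so_frob_trace, an2so_frob_trace]
  have e : (g * X * g.transpose).transpose * (g * X * g.transpose)
      = g * (X.transpose * X) * g.transpose := by
    rw [Matrix.transpose_mul, Matrix.transpose_mul, Matrix.transpose_transpose]
    calc g * (X.transpose * g.transpose) * (g * X * g.transpose)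
        = g * X.transpose * (g.transpose * g) * X * g.transpose := by simp only [Matrix.mul_assoc]
      _ = g * (X.transpose * X) * g.transpose := by rw [h', Matrix.mul_one]; simp only [Matrix.mul_assoc]
  rw [e, Matrix.trace_mul_comm, ← Matrix.mul_assoc, h', Matrix.one_mul]

theorem an2_orb_frob {X : An2M n} {x : Vec n} (h : An2Orb X x) :
    ∑ p, ∑ q, (X p q) ^ 2 = 2 * ∑ i, (x i) ^ 2 := by
  obtain ⟨g, rfl⟩ := h
  rw [an2_frob_conj _ _ (an2_so_mul_transpose g), an2_J_frob]

end SO

section W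

/-- the matrix of `w ∈ W(D_n)`: `e_(j,r) ↦ c e_(σ j, r)`, `c = 1` for `r = 0`, `c = sgnB (s (σ j))` for `r = 1` -/
def an2P (w : WD n) : An2M n :=
  fun p q => if p.1 = w.σ q.1 ∧ p.2 = q.2 then (if p.2 = 1 then sgnB (w.s p.1) else 1) else 0

theorem an2w_sgnB_sq (b : Bool) : sgnB b * sgnB b = 1 := by
  cases b <;> simp [sgnB]

/-- the sign vector of `an2P` -/
def an2wC (w : WD n) (p : Ix n) : ℝ := if p.2 = 1 then sgnB (w.s p.1) else 1

theorem an2wC_sq (w : WD n) (p : Ix n) : an2wC w p * an2wC w p = 1 := by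
  unfold an2wC
  split_ifs
  · exact an2w_sgnB_sq _
  · norm_num

theorem an2wC_zero (w : WD n) (i : Fin n) : an2wC w (i, 0) = 1 := by
  simp [an2wC]

theorem an2wC_one (w : WD n) (i : Fin n) : an2wC w (i, 1) = sgnB (w.s i) := by
  simp [an2wC]

theorem an2w_P_eq (w : WD n) : an2P w = (Matrix.diagonal (an2wC w)).submatrix id
    (Equiv.prodCongrLeft (fun _ : Fin 2 => w.σ)) := by
  ext p ⟨j, t⟩
  rw [Matrix.submatrix_apply, Matrix.diagonal_apply]
  simp only [an2P, an2wC, id, Equiv.prodCongrLeft_apply, Prod.ext_iff]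

theorem an2w_prod_sgnB (w : WD n) : ∏ i, sgnB (w.s i) = 1 := by
  have h : ∏ i, sgnB (w.s i) = (-1 : ℝ) ^ (Finset.univ.filter fun i => w.s i = true).card := by
    rw [← Finset.prod_const, Finset.prod_filter]
    refine Finset.prod_congr rfl fun i _ => ?_
    cases w.s i <;> simp [sgnB]
  rw [h]
  exact w.even.neg_one_pow

theorem an2P_mem (w : WD n) : an2P w ∈ Matrix.specialOrthogonalGroup (Ix n) ℝ := by
  refine an2_so_mk _ ?_ ?_
  · rw [an2w_P_eq, Matrix.transpose_submatrix, Matrix.submatrix_mul_equiv, Matrix.diagonal_transpose,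
      Matrix.diagonal_mul_diagonal]
    have e : (fun p => an2wC w p * an2wC w p) = fun _ => (1 : ℝ) := funext (an2wC_sq w)
    rw [e, Matrix.diagonal_one]
    exact Matrix.submatrix_id_id _
  · rw [an2w_P_eq, Matrix.det_permute', Matrix.det_diagonal, Equiv.Perm.sign_prodCongrLeft,
      Fintype.prod_prod_type]
    have e : ∀ i : Fin n, ∏ r : Fin 2, an2wC w (i, r) = sgnB (w.s i) := fun i => by
      rw [Fin.prod_univ_two, an2wC_zero, an2wC_one, one_mul]
    simp only [e, an2w_prod_sgnB, Fin.prod_univ_two, Int.units_mul_self]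
    simp

theorem an2w_P_mul_apply (w : WD n) (M : An2M n) (p q : Ix n) :
    (an2P w * M) p q = an2wC w p * M (w.σ.symm p.1, p.2) q := by
  rw [Matrix.mul_apply, Finset.sum_eq_single (w.σ.symm p.1, p.2)]
  · simp [an2P, an2wC]
  · rintro r - hne
    have : ¬ (p.1 = w.σ r.1 ∧ p.2 = r.2) := by
      rintro ⟨h1, h2⟩
      apply hne
      ext1
      · simp [h1]
      · exact h2.symm
    simp [an2P, this]
  · intro h
    exact absurd (Finset.mem_univ _) h

theorem an2w_mul_PT_apply (w : WD n) (M : An2M n) (p q : Ix n) :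
    (M * (an2P w).transpose) p q = M p (w.σ.symm q.1, q.2) * an2wC w q := by
  rw [Matrix.mul_apply, Finset.sum_eq_single (w.σ.symm q.1, q.2)]
  · simp [an2P, an2wC]
  · rintro r - hne
    have : ¬ (q.1 = w.σ r.1 ∧ q.2 = r.2) := by
      rintro ⟨h1, h2⟩
      apply hne
      ext1
      · simp [h1]
      · exact h2.symm
    simp [an2P, this]
  · intro h
    exact absurd (Finset.mem_univ _) h

theorem an2P_conj (w : WD n) (x : Vec n) : an2P w * Jmat x * (an2P w).transpose = Jmat (w.act x) := by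
  ext ⟨i, r⟩ ⟨j, t⟩
  rw [an2w_mul_PT_apply, an2w_P_mul_apply]
  by_cases h : i = j
  · subst h
    fin_cases r <;> fin_cases t
    · show an2wC w (i, 0) * Jmat x (w.σ.symm i, 0) (w.σ.symm i, 0) * an2wC w (i, 0) = Jmat (w.act x) (i, 0) (i, 0)
      rw [an2_J_diag, an2_J_diag]
      ring
    · show an2wC w (i, 0) * Jmat x (w.σ.symm i, 0) (w.σ.symm i, 1) * an2wC w (i, 1) = Jmat (w.act x) (i, 0) (i, 1)
      rw [an2_J_01, an2_J_01, an2wC_zero, an2wC_one]
      unfold WD.act
      ring
    · show an2wC w (i, 1) * Jmat x (w.σ.symm i, 1) (w.σ.symm i, 0) * an2wC w (i, 0) = Jmat (w.act x) (i, 1) (i, 0)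
      rw [an2_J_10, an2_J_10, an2wC_zero, an2wC_one]
      unfold WD.act
      ring
    · show an2wC w (i, 1) * Jmat x (w.σ.symm i, 1) (w.σ.symm i, 1) * an2wC w (i, 1) = Jmat (w.act x) (i, 1) (i, 1)
      rw [an2_J_diag, an2_J_diag]
      ring
  · show an2wC w (i, r) * Jmat x (w.σ.symm i, r) (w.σ.symm j, t) * an2wC w (j, t) = _
    rw [an2_J_ne _ h, an2_J_ne _ (fun h' => h (w.σ.symm.injective h'))]
    ring

theorem an2_orb_weyl (X : An2M n) (x : Vec n) (w : WD n) : An2Orb X (w.act x) ↔ An2Orb X x := by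
  have hP := an2P_mem w
  have h1 : an2P w * (an2P w).transpose = 1 := an2_so_mul_transpose ⟨_, hP⟩
  have h2 : (an2P w).transpose * an2P w = 1 := an2_so_transpose_mul ⟨_, hP⟩
  have h3 : (an2P w).det = 1 := an2_so_det ⟨_, hP⟩
  constructor
  · rintro ⟨g, rfl⟩
    refine ⟨g * ⟨_, hP⟩, ?_⟩
    show g.1 * Jmat (w.act x) * g.1.transpose = (g.1 * an2P w) * Jmat x * (g.1 * an2P w).transpose
    rw [← an2P_conj, Matrix.transpose_mul]
    simp only [Matrix.mul_assoc]
  · rintro ⟨g, rfl⟩
    have hg1 := an2_so_mul_transpose g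
    have hm : (g.1 * (an2P w).transpose) * (g.1 * (an2P w).transpose).transpose = 1 := by
      rw [Matrix.transpose_mul, Matrix.transpose_transpose, Matrix.mul_assoc,
        ← Matrix.mul_assoc (an2P w).transpose, h2, Matrix.one_mul, hg1]
    have hd : (g.1 * (an2P w).transpose).det = 1 := by
      rw [Matrix.det_mul, Matrix.det_transpose, h3, an2_so_det, mul_one]
    refine ⟨⟨_, an2_so_mk _ hm hd⟩, ?_⟩
    show g.1 * Jmat x * g.1.transpose
      = (g.1 * (an2P w).transpose) * Jmat (w.act x) * (g.1 * (an2P w).transpose).transpose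
    rw [← an2P_conj, Matrix.transpose_mul, Matrix.transpose_transpose]
    calc g.1 * Jmat x * g.1.transpose
        = g.1 * (((an2P w).transpose * an2P w) * Jmat x * ((an2P w).transpose * an2P w)) * g.1.transpose := by
          rw [h2, Matrix.one_mul, Matrix.mul_one]
      _ = _ := by simp only [Matrix.mul_assoc]

/-- the reflection `e_(i₀,1) ↦ - e_(i₀,1)` -/
def an2D (i₀ : Fin n) : An2M n := Matrix.diagonal (fun p : Ix n => if p = (i₀, 1) then -1 else 1)

theorem an2D_orth (i₀ : Fin n) : an2D i₀ * (an2D i₀).transpose = 1 := by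
  unfold an2D
  rw [Matrix.diagonal_transpose, Matrix.diagonal_mul_diagonal, ← Matrix.diagonal_one]
  congr 1
  funext p
  split_ifs <;> norm_num

theorem an2D_det (i₀ : Fin n) : (an2D i₀).det = -1 := by
  unfold an2D
  rw [Matrix.det_diagonal, Finset.prod_ite_eq' Finset.univ (i₀, (1 : Fin 2)) (fun _ => (-1 : ℝ))]
  simp

theorem an2D_conj (i₀ : Fin n) (x : Vec n) :
    an2D i₀ * Jmat x * (an2D i₀).transpose = Jmat (Function.update x i₀ (- x i₀)) := by
  unfold an2D
  rw [Matrix.diagonal_transpose]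
  ext ⟨i, r⟩ ⟨j, t⟩
  rw [Matrix.mul_diagonal, Matrix.diagonal_mul]
  by_cases h : i = j
  · subst h
    by_cases hi : i = i₀
    · subst hi
      fin_cases r <;> fin_cases t <;> simp [Jmat]
    · fin_cases r <;> fin_cases t <;> simp [Jmat, hi]
  · rw [an2_J_ne _ h, an2_J_ne _ h]
    ring

end W

section K

theorem an2_moment_weyl (a b c : Vec n) (w₁ w₃ : WD n) :
    MomentD (w₁.act a) b (w₃.act c) ↔ MomentD a b c := by
  simp only [an2_moment_iff, an2_orb_weyl]

theorem an2_moment_weyl_mid (a b c : Vec n) (w₂ : WD n) : MomentD a (w₂.act b) c ↔ MomentD a b c := by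
  simp only [an2_moment_iff, an2_orb_weyl]

theorem an2_moment_smul (a b c : Vec n) (r : ℝ) (h : MomentD a b c) : MomentD (r • a) (r • b) (r • c) := by
  obtain ⟨X, Y, hX, hY, hZ⟩ := (an2_moment_iff a b c).1 h
  refine (an2_moment_iff _ _ _).2 ⟨r • X, r • Y, an2_orb_smul hX r, an2_orb_smul hY r, ?_⟩
  rw [← smul_add]
  exact an2_orb_smul hZ r

theorem an2_moment_of_add (a b c : Vec n) (h : a + b = c) : MomentD a b c := by
  refine (an2_moment_iff _ _ _).2 ⟨Jmat a, Jmat b, an2_orb_self a, an2_orb_self b, ?_⟩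
  rw [← an2_J_add, h]
  exact an2_orb_self c

theorem an2_ss_top (hn : 2 ≤ n) : Ty.D.ss n = ⊤ := by
  rw [eq_top_iff]
  intro x _
  have hbasis : ∀ i : Fin n, (fun k : Fin n => if i = k then (1 : ℝ) else 0) ∈ Ty.D.ss n := by
    intro i
    obtain ⟨j, hj⟩ : ∃ j : Fin n, i ≠ j := by
      by_cases hi : i.val = 0
      · exact ⟨⟨1, by omega⟩, fun h => by have := congrArg Fin.val h; simp at this; omega⟩
      · exact ⟨⟨0, by omega⟩, fun h => by have := congrArg Fin.val h; simp at this; omega⟩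
    have h1 : (RootD.mk i j hj false false).vec ∈ Ty.D.ss n :=
      Submodule.subset_span ⟨_, trivial, rfl⟩
    have h2 : (RootD.mk i j hj false true).vec ∈ Ty.D.ss n :=
      Submodule.subset_span ⟨_, trivial, rfl⟩
    have e : (fun k : Fin n => if i = k then (1 : ℝ) else 0)
        = (1 / 2 : ℝ) • ((RootD.mk i j hj false false).vec + (RootD.mk i j hj false true).vec) := by
      funext k
      simp only [RootD.vec, sgnB, Pi.smul_apply, Pi.add_apply, smul_eq_mul]
      by_cases hk : k = i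
      · subst hk
        simp [hj]
        norm_num
      · have hk' : ¬ i = k := fun h => hk h.symm
        by_cases hkj : k = j
        · subst hkj
          simp [hk, hk']
        · simp [hk, hk', hkj]
    rw [e]
    exact Submodule.smul_mem _ _ (Submodule.add_mem _ h1 h2)
  rw [pi_eq_sum_univ x]
  exact Submodule.sum_mem _ fun i _ => Submodule.smul_mem _ _ (hbasis i)

theorem an2_ss_bot (hn : n ≤ 1) : Ty.D.ss n = ⊥ := by
  have hsub : Subsingleton (Fin n) := Fin.subsingleton_iff_le_one.2 hn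
  unfold Ty.ss
  rw [Submodule.span_eq_bot]
  rintro _ ⟨β, -, rfl⟩
  exact absurd (Subsingleton.elim β.i β.j) β.ne

theorem an2_central_iff_ss (hn : 2 ≤ n) (a b c : Vec n) : Ty.D.Central a b c ↔ a + b - c ∈ Ty.D.ss n := by
  rw [an2_ss_top hn]
  exact ⟨fun _ => Submodule.mem_top, fun _ => trivial⟩

/-- `SO(2)` is abelian -/
theorem an2_conj_one (g : Matrix.specialOrthogonalGroup (Ix 1) ℝ) (x : Vec 1) :
    g.1 * Jmat x * g.1.transpose = Jmat x := by
  have hdet : g.1 (0, 0) (0, 0) * g.1 (0, 1) (0, 1) - g.1 (0, 0) (0, 1) * g.1 (0, 1) (0, 0) = 1 := by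
    have h1 := an2_so_det g
    rw [← Matrix.det_submatrix_equiv_self (Equiv.uniqueProd (Fin 2) (Fin 1)).symm, Matrix.det_fin_two] at h1
    exact h1
  have hent : ∀ y z : Ix 1, (g.1 * Jmat x * g.1.transpose) y z
      = x 0 * (g.1 y (0, 0) * g.1 z (0, 1) - g.1 y (0, 1) * g.1 z (0, 0)) := by
    intro y z
    rw [Matrix.mul_apply, Fintype.sum_prod_type, Fin.sum_univ_one, Fin.sum_univ_two,
      (an2_mul_J_apply x g.1 y 0).1, (an2_mul_J_apply x g.1 y 0).2]
    simp only [Matrix.transpose_apply]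
    ring
  ext ⟨i, s⟩ ⟨j, t⟩
  have hi : i = 0 := Subsingleton.elim _ _
  have hj : j = 0 := Subsingleton.elim _ _
  subst hi hj
  rw [hent]
  fin_cases s <;> fin_cases t
  · show x 0 * (g.1 (0, 0) (0, 0) * g.1 (0, 0) (0, 1) - g.1 (0, 0) (0, 1) * g.1 (0, 0) (0, 0)) = Jmat x (0, 0) (0, 0)
    rw [an2_J_diag]; ring
  · show x 0 * (g.1 (0, 0) (0, 0) * g.1 (0, 1) (0, 1) - g.1 (0, 0) (0, 1) * g.1 (0, 1) (0, 0)) = Jmat x (0, 0) (0, 1)
    rw [an2_J_01, hdet, mul_one]
  · show x 0 * (g.1 (0, 1) (0, 0) * g.1 (0, 0) (0, 1) - g.1 (0, 1) (0, 1) * g.1 (0, 0) (0, 0)) = Jmat x (0, 1) (0, 0)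
    rw [an2_J_10]
    linear_combination (-(x 0)) * hdet
  · show x 0 * (g.1 (0, 1) (0, 0) * g.1 (0, 1) (0, 1) - g.1 (0, 1) (0, 1) * g.1 (0, 1) (0, 0)) = Jmat x (0, 1) (0, 1)
    rw [an2_J_diag]; ring

theorem an2_moment_central (a b c : Vec n) (h : MomentD a b c) : a + b - c ∈ Ty.D.ss n := by
  by_cases hn : 2 ≤ n
  · rw [an2_ss_top hn]; exact Submodule.mem_top
  · have hn1 : n = 0 ∨ n = 1 := by omega
    rcases hn1 with rfl | rfl
    · have : a + b - c = 0 := Subsingleton.elim _ _
      rw [this]; exact Submodule.zero_mem _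
    · obtain ⟨X, Y, ⟨g1, h1⟩, ⟨g2, h2⟩, ⟨g3, h3⟩⟩ := (an2_moment_iff a b c).1 h
      rw [an2_conj_one] at h1 h2 h3
      rw [h1, h2, ← an2_J_add] at h3
      have := an2_J_injective h3
      rw [this, sub_self]
      exact Submodule.zero_mem _

/-- regular + dominant -/
theorem an2_reg_add (x : Vec n) (hx : Dom x) (t : ℝ) (ht : 0 < t) : Ty.D.Reg (x + t • rhoV n) := by
  intro i j hij
  have h1 := hx i j hij
  have hij' : ((i : ℕ) : ℝ) < ((j : ℕ) : ℝ) := by exact_mod_cast hij
  have hj : ((j : ℕ) : ℝ) + 1 ≤ (n : ℝ) := by exact_mod_cast j.2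
  simp only [Pi.add_apply, Pi.smul_apply, smul_eq_mul, rhoV]
  have h2 : |x j + t * ((n : ℝ) - 1 - ((j : ℕ) : ℝ))| ≤ |x j| + t * ((n : ℝ) - 1 - ((j : ℕ) : ℝ)) := by
    refine (abs_add_le _ _).trans ?_
    rw [abs_of_nonneg (mul_nonneg ht.le (by linarith))]
  have h3 : t * ((n : ℝ) - 1 - ((j : ℕ) : ℝ)) < t * ((n : ℝ) - 1 - ((i : ℕ) : ℝ)) :=
    mul_lt_mul_of_pos_left (by linarith) ht
  linarith

/-- the open chamber is open -/
theorem an2_reg_open (x : Vec n) (hx : Ty.D.Reg x) : ∃ δ > 0, ∀ y : Vec n, dist y x < δ → Ty.D.Reg y := by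
  have hopen : IsOpen {y : Vec n | Ty.D.Reg y} := by
    have e : {y : Vec n | Ty.D.Reg y} = ⋂ i : Fin n, ⋂ j : Fin n, {y : Vec n | i < j → |y j| < y i} := by
      ext y
      simp only [Set.mem_iInter]
      exact Iff.rfl
    rw [e]
    refine isOpen_iInter_of_finite fun i => isOpen_iInter_of_finite fun j => ?_
    by_cases hij : i < j
    · have : {y : Vec n | i < j → |y j| < y i} = {y : Vec n | |y j| < y i} := by
        ext y
        exact ⟨fun h => h hij, fun h _ => h⟩
      rw [this]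
      exact isOpen_lt (continuous_abs.comp (continuous_apply j)) (continuous_apply i)
    · have : {y : Vec n | i < j → |y j| < y i} = Set.univ := by
        ext y
        exact ⟨fun _ => trivial, fun _ h => absurd h hij⟩
      rw [this]
      exact isOpen_univ
  obtain ⟨δ, hδ, hball⟩ := Metric.isOpen_iff.1 hopen x hx
  exact ⟨δ, hδ, fun y hy => hball hy⟩

theorem an2_dom_closed : IsClosed {x : Vec n | Dom x} := by
  have e : {x : Vec n | Dom x} = ⋂ i : Fin n, ⋂ j : Fin n, {y : Vec n | i < j → |y j| ≤ y i} := by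
    ext y
    simp only [Set.mem_iInter]
    exact Iff.rfl
  rw [e]
  refine isClosed_iInter fun i => isClosed_iInter fun j => ?_
  by_cases hij : i < j
  · have : {y : Vec n | i < j → |y j| ≤ y i} = {y : Vec n | |y j| ≤ y i} := by
      ext y
      exact ⟨fun h => h hij, fun h _ => h⟩
    rw [this]
    exact isClosed_le (continuous_abs.comp (continuous_apply j)) (continuous_apply i)
  · have : {y : Vec n | i < j → |y j| ≤ y i} = Set.univ := by
      ext y
      exact ⟨fun _ => trivial, fun _ h => absurd h hij⟩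
    rw [this]
    exact isClosed_univ

end K

end Claimed.Agent.R282
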