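import Claimed.Agent.R282.S2AB.AN2.Basic

/-!
# Row 282, package AN2, file 2: normal form of real skew matrices (SP1)

Architect: helper178.  Statements FROZEN; helper lemmas: prefix `an2n_`.  No paper.
LEAVES: L-AN2-N1 (`an2_skew_pair`, `an2_skew_compl`), L-AN2-N2 (`an2_skew_zero`, `an2_skew_blocks`), L-AN2-N3 (`an2_normal_orth`), L-AN2-N4 (`an2_normal_so`, `an2_normal_form`).

ROUTES.
* `an2_skew_pair`.  `S := T ∘ₗ T` is symmetric (`LinearMap.IsSymmetric`), `⟪S w, w⟫ = - ‖T w‖²`.  `S ≠ 0` (else `T = 0`).  A symmetric operator all of whose eigenvalues vanish is `0`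
  (`LinearMap.IsSymmetric.eigenvectorBasis`, `apply_eigenvectorBasis`, `Basis.ext`), so there is a unit vector `w` with `S w = μ w`, `μ ≠ 0`; `μ = ⟪S w, w⟫ = - ‖T w‖² < 0`.
  `lam := √(-μ)`, `v := w`, `u := lam⁻¹ • T w`:  `T v = lam u`, `T u = lam⁻¹ μ w = - lam v`, `‖u‖ = 1`, `⟪u, v⟫ = lam⁻¹ ⟪T w, w⟫ = 0` (`⟪T w, w⟫ = - ⟪w, T w⟫`, `real_inner_comm`).
* `an2_skew_compl`.  `w ⊥ u, v` ⇒ `⟪T w, u⟫ = - ⟪w, T u⟫ = lam ⟪w, v⟫ = 0`, same for `v` (`Submodule.mem_orthogonal`, `Submodule.span_induction` or `Submodule.mem_span_pair`).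
  `finrank (span {u, v}) = 2` (`u, v` orthonormal ⇒ linearly independent: `Orthonormal.linearIndependent`, `finrank_span_eq_card`), `Submodule.finrank_add_finrank_orthogonal`.
* `an2_skew_zero`.  `stdOrthonormalBasis ℝ E` reindexed along `Fin (finrank) ≃ Fin n × Fin 2` (`Fintype.equivOfCardEq`, card `= n * 2`).
* `an2_skew_blocks`.  Induction on `n`, `E` universally quantified.  `n = 0`: the empty family.  Step: `T = 0`: `an2_skew_zero`, `x = 0`.  `T ≠ 0`: `u, v, lam` from `an2_skew_pair`, `F := (span {u, v})ᗮ`,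
  `T' := T.restrict _ : F →ₗ F` is skew, `finrank F = 2 n`; induction gives `e', x'`;  `e (i, p) := Fin.cases (if p = 0 then u else v) (fun i' => (e' (i', p) : E)) i`, `x := Fin.cons lam x'`.
  Orthonormality: `orthonormal_iff_ite`, cases on the two indices (`Fin.cases`), members of `F` are orthogonal to `u, v`.
* `an2_normal_orth`.  `E := EuclideanSpace ℝ (Ix n)`, `T := Matrix.toEuclideanLin X` (or `(Matrix.toLin' X)` transported by `WithLp.linearEquiv`);  `⟪T a, b⟫ = (X a) ⬝ᵥ b = a ⬝ᵥ (Xᵀ b) = - ⟪a, T b⟫`;  `finrank = card (Ix n) = 2 n`.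
  `g p q := e q p` (columns = the vectors `e q`).  `gᵀ g = 1` is orthonormality, hence `g gᵀ = 1` (`Matrix.mul_eq_one_comm`).  `X g = g J(x)` column by column (`an2_mul_J_apply`).  So `X = X g gᵀ = g J(x) gᵀ`.
* `an2_normal_so`.  `det g = 1`: done.  `det g = -1` (`an2_orth_det`): then `n ≥ 1` (for `n = 0` the determinant is `1`); `i₀ := ⟨0, _⟩`, `g' := g * an2D i₀`, `x' := update x i₀ (- x i₀)`;
  `g' J(x') g'ᵀ = g (D J(x') Dᵀ) gᵀ = g J(x) gᵀ` (`an2D_conj`, `update` twice), `det g' = 1`, `g' g'ᵀ = 1`.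
* `an2_normal_form`.  `sc_exists_dom x` gives `u` with `Dom (u.act x)`; `an2_orb_weyl`.
-/

set_option autoImplicit false

namespace Claimed.Agent.R282

open Matrix

variable {n : ℕ}

section Abstract

variable {E : Type} [NormedAddCommGroup E] [InnerProductSpace ℝ E] [FiniteDimensional ℝ E]

/-- a nonzero skew operator has a rotation plane -/
theorem an2_skew_pair (T : E →ₗ[ℝ] E) (hT : ∀ a b, inner ℝ (T a) b = - inner ℝ a (T b)) (h0 : T ≠ 0) :
    ∃ (u v : E) (lam : ℝ), 0 < lam ∧ ‖u‖ = 1 ∧ ‖v‖ = 1 ∧ inner ℝ u v = 0 ∧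
      T u = - lam • v ∧ T v = lam • u := by
  obtain ⟨S, hSdef⟩ : ∃ S : E →ₗ[ℝ] E, S = T ∘ₗ T := ⟨_, rfl⟩
  have hSa : ∀ a, S a = T (T a) := fun a => by rw [hSdef]; rfl
  have hS : S.IsSymmetric := fun a b => by
    rw [hSa, hSa, hT, hT a, neg_neg]
  have hSw : ∀ w, inner ℝ (S w) w = - ‖T w‖ ^ 2 := fun w => by
    rw [hSa, hT, real_inner_self_eq_norm_sq]
  obtain ⟨i, hi⟩ : ∃ i, hS.eigenvalues rfl i ≠ 0 := by
    by_contra hcon
    push Not at hcon
    apply h0
    have hS0 : S = 0 := by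
      refine (hS.eigenvectorBasis rfl).toBasis.ext fun i => ?_
      rw [OrthonormalBasis.coe_toBasis, hS.apply_eigenvectorBasis, hcon i]
      simp
    ext w
    have h1 := hSw w
    rw [hS0] at h1
    simp only [LinearMap.zero_apply, inner_zero_left] at h1
    have h2 : ‖T w‖ ^ 2 = 0 := by linarith
    simpa using h2
  obtain ⟨w, hw⟩ : ∃ w, w = hS.eigenvectorBasis rfl i := ⟨_, rfl⟩
  obtain ⟨μ, hμ⟩ : ∃ μ, μ = hS.eigenvalues rfl i := ⟨_, rfl⟩
  have hw1 : ‖w‖ = 1 := by rw [hw]; exact (hS.eigenvectorBasis rfl).orthonormal.1 i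
  have hSw' : S w = μ • w := by
    rw [hw, hμ]
    simp
  have hμ' : μ = - ‖T w‖ ^ 2 := by
    have h1 := hSw w
    rw [hSw', inner_smul_left, real_inner_self_eq_norm_sq, hw1] at h1
    simpa using h1
  have hμneg : μ < 0 := lt_of_le_of_ne (by rw [hμ']; nlinarith [sq_nonneg ‖T w‖]) (by rw [hμ]; exact hi)
  obtain ⟨lam, hlamdef⟩ : ∃ lam, lam = Real.sqrt (-μ) := ⟨_, rfl⟩
  have hlam : 0 < lam := by rw [hlamdef]; exact Real.sqrt_pos.2 (by linarith)
  have hlam2 : lam ^ 2 = -μ := by rw [hlamdef]; exact Real.sq_sqrt (by linarith)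
  refine ⟨lam⁻¹ • T w, w, lam, hlam, ?_, hw1, ?_, ?_, ?_⟩
  · have h1 : ‖T w‖ = lam := by
      have h2 : ‖T w‖ ^ 2 = lam ^ 2 := by linarith
      exact (sq_eq_sq₀ (norm_nonneg _) hlam.le).1 h2
    rw [norm_smul, h1, Real.norm_of_nonneg (inv_nonneg.2 hlam.le), inv_mul_cancel₀ hlam.ne']
  · have h1 : inner ℝ (T w) w = (0 : ℝ) := by
      have h2 := hT w w
      have h3 := real_inner_comm w (T w)
      linarith
    rw [inner_smul_left, h1, mul_zero]
  · rw [map_smul, ← hSa, hSw', smul_smul]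
    congr 1
    field_simp
    linarith
  · rw [smul_smul, mul_inv_cancel₀ hlam.ne', one_smul]

/-- the orthogonal complement of a rotation plane -/
theorem an2_skew_compl (T : E →ₗ[ℝ] E) (hT : ∀ a b, inner ℝ (T a) b = - inner ℝ a (T b)) (u v : E) (lam : ℝ)
    (hu : ‖u‖ = 1) (hv : ‖v‖ = 1) (huv : inner ℝ u v = 0) (h1 : T u = - lam • v) (h2 : T v = lam • u) :
    (∀ w ∈ (Submodule.span ℝ {u, v})ᗮ, T w ∈ (Submodule.span ℝ {u, v})ᗮ) ∧
      Module.finrank ℝ ((Submodule.span ℝ {u, v})ᗮ : Submodule ℝ E) + 2 = Module.finrank ℝ E := by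
  constructor
  · intro w hw
    rw [Submodule.mem_orthogonal] at hw ⊢
    have hwu : inner ℝ u w = (0 : ℝ) := hw u (Submodule.subset_span (by simp))
    have hwv : inner ℝ v w = (0 : ℝ) := hw v (Submodule.subset_span (by simp))
    have e1 : inner ℝ u (T w) = (0 : ℝ) := by
      have h3 := hT u w
      rw [h1, inner_smul_left, hwv, mul_zero] at h3
      linarith
    have e2 : inner ℝ v (T w) = (0 : ℝ) := by
      have h3 := hT v w
      rw [h2, inner_smul_left, hwu, mul_zero] at h3
      linarith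
    intro z hz
    obtain ⟨a, b, rfl⟩ := Submodule.mem_span_pair.1 hz
    rw [inner_add_left, inner_smul_left, inner_smul_left, e1, e2, mul_zero, mul_zero, add_zero]
  · have hon : Orthonormal ℝ ![u, v] := by
      rw [orthonormal_iff_ite]
      intro i j
      fin_cases i <;> fin_cases j
      · simp [hu]
      · simpa using huv
      · simpa [real_inner_comm] using huv
      · simp [hv]
    have hr : Set.range ![u, v] = {u, v} := by
      ext z
      simp [eq_comm, or_comm]
    have hf : Module.finrank ℝ (Submodule.span ℝ ({u, v} : Set E)) = 2 := by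
      rw [← hr, finrank_span_eq_card hon.linearIndependent]
      simp
    have h3 := Submodule.finrank_add_finrank_orthogonal (Submodule.span ℝ ({u, v} : Set E))
    rw [hf] at h3
    omega

theorem an2_skew_zero (n : ℕ) (h : Module.finrank ℝ E = 2 * n) :
    ∃ e : Fin n × Fin 2 → E, Orthonormal ℝ e := by
  have hc : Fintype.card (Fin n × Fin 2) = Fintype.card (Fin (Module.finrank ℝ E)) := by
    simp [h, mul_comm]
  exact ⟨(stdOrthonormalBasis ℝ E) ∘ (Fintype.equivOfCardEq hc),
    (stdOrthonormalBasis ℝ E).orthonormal.comp _ (Fintype.equivOfCardEq hc).injective⟩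

end Abstract

/-- **normal form of a skew operator** on a Euclidean space of dimension `2 n` -/
theorem an2_skew_blocks (n : ℕ) : ∀ (E : Type) [NormedAddCommGroup E] [InnerProductSpace ℝ E]
    [FiniteDimensional ℝ E] (T : E →ₗ[ℝ] E), (∀ a b, inner ℝ (T a) b = - inner ℝ a (T b)) →
    Module.finrank ℝ E = 2 * n →
    ∃ (e : Fin n × Fin 2 → E) (x : Fin n → ℝ), Orthonormal ℝ e ∧
      ∀ i, T (e (i, 0)) = - x i • e (i, 1) ∧ T (e (i, 1)) = x i • e (i, 0) := by
  induction n with
  | zero =>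
    intro E _ _ _ T _ _
    exact ⟨fun p => p.1.elim0, fun i => i.elim0, ⟨fun p => p.1.elim0, fun p => p.1.elim0⟩,
      fun i => i.elim0⟩
  | succ n ih =>
    intro E _ _ _ T hT hfin
    by_cases h0 : T = 0
    · obtain ⟨e, he⟩ := an2_skew_zero (E := E) (n + 1) hfin
      exact ⟨e, fun _ => 0, he, fun i => by simp [h0]⟩
    · obtain ⟨u, v, lam, -, hu, hv, huv, h1, h2⟩ := an2_skew_pair T hT h0
      obtain ⟨hinv, hfr⟩ := an2_skew_compl T hT u v lam hu hv huv h1 h2
      obtain ⟨F, hF⟩ : ∃ F : Submodule ℝ E, F = (Submodule.span ℝ {u, v})ᗮ := ⟨_, rfl⟩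
      rw [← hF] at hinv hfr
      have hFu : ∀ z : F, inner ℝ u (z : E) = (0 : ℝ) := fun z => by
        have hz : (z : E) ∈ (Submodule.span ℝ {u, v})ᗮ := hF ▸ z.2
        rw [Submodule.mem_orthogonal] at hz
        exact hz u (Submodule.subset_span (by simp))
      have hFv : ∀ z : F, inner ℝ v (z : E) = (0 : ℝ) := fun z => by
        have hz : (z : E) ∈ (Submodule.span ℝ {u, v})ᗮ := hF ▸ z.2
        rw [Submodule.mem_orthogonal] at hz
        exact hz v (Submodule.subset_span (by simp))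
      obtain ⟨e', x', he', hx'⟩ := ih F (T.restrict hinv)
        (fun a b => by
          rw [Submodule.coe_inner, Submodule.coe_inner, LinearMap.coe_restrict_apply,
            LinearMap.coe_restrict_apply]
          exact hT a b)
        (by omega)
      have hTe : ∀ z : F, T (z : E) = ((T.restrict hinv z : F) : E) := fun z =>
        (LinearMap.coe_restrict_apply hinv z).symm
      rw [orthonormal_iff_ite] at he'
      refine ⟨fun p => Fin.cases (motive := fun _ => E) (if p.2 = 0 then u else v)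
        (fun i' => (e' (i', p.2) : E)) p.1, Fin.cons lam x', ?_, ?_⟩
      · rw [orthonormal_iff_ite]
        rintro ⟨i, p⟩ ⟨j, q⟩
        refine Fin.cases ?_ (fun i' => ?_) i <;> refine Fin.cases ?_ (fun j' => ?_) j
        · fin_cases p <;> fin_cases q
          · simp [hu]
          · simpa using huv
          · simpa [real_inner_comm] using huv
          · simp [hv]
        · have hne : ((0 : Fin (n + 1)), p) ≠ (j'.succ, q) := fun h =>
            (Fin.succ_ne_zero j') (congrArg Prod.fst h).symm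
          rw [if_neg hne]
          simp only [Fin.cases_zero, Fin.cases_succ]
          split_ifs
          · exact hFu _
          · exact hFv _
        · have hne : (i'.succ, p) ≠ ((0 : Fin (n + 1)), q) := fun h =>
            (Fin.succ_ne_zero i') (congrArg Prod.fst h)
          rw [if_neg hne]
          simp only [Fin.cases_zero, Fin.cases_succ]
          rw [real_inner_comm]
          split_ifs
          · exact hFu _
          · exact hFv _
        · simp only [Fin.cases_succ]
          rw [← Submodule.coe_inner, he']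
          simp only [Prod.mk.injEq, Fin.succ_inj]
      · intro i
        refine Fin.cases ?_ (fun i' => ?_) i
        · simp only [Fin.cases_zero, Fin.cons_zero, ↓reduceIte, Fin.isValue, one_ne_zero]
          exact ⟨h1, h2⟩
        · simp only [Fin.cases_succ, Fin.cons_succ]
          rw [hTe, hTe, (hx' i').1, (hx' i').2]
          exact ⟨rfl, rfl⟩

theorem an2_normal_orth (X : An2M n) (hX : X.transpose = -X) :
    ∃ (g : An2M n) (x : Vec n), g * g.transpose = 1 ∧ X = g * Jmat x * g.transpose := by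
  obtain ⟨T, hTdef⟩ : ∃ T : EuclideanSpace ℝ (Ix n) →ₗ[ℝ] EuclideanSpace ℝ (Ix n),
    T = Matrix.toEuclideanLin X := ⟨_, rfl⟩
  have hTa : ∀ (a : EuclideanSpace ℝ (Ix n)) (p : Ix n), (T a).ofLp p = ∑ r, X p r * a.ofLp r :=
    fun a p => by rw [hTdef]; rfl
  have hskew : ∀ a b, inner ℝ (T a) b = - inner ℝ a (T b) := fun a b => by
    rw [← LinearMap.adjoint_inner_right, hTdef, ← Matrix.toEuclideanLin_conjTranspose_eq_adjoint,
      Matrix.conjTranspose_eq_transpose_of_trivial, hX, map_neg, LinearMap.neg_apply, inner_neg_right]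
  have hfin : Module.finrank ℝ (EuclideanSpace ℝ (Ix n)) = 2 * n := by
    rw [finrank_euclideanSpace]
    simp [mul_comm]
  obtain ⟨e, x, he, hx⟩ := an2_skew_blocks n (EuclideanSpace ℝ (Ix n)) T hskew hfin
  obtain ⟨g, hg⟩ : ∃ g : An2M n, g = fun p q => (e q).ofLp p := ⟨_, rfl⟩
  have hga : ∀ p q, g p q = (e q).ofLp p := fun p q => by rw [hg]
  have h1 : g.transpose * g = 1 := by
    rw [orthonormal_iff_ite] at he
    ext q q'
    rw [Matrix.mul_apply, Matrix.one_apply, ← he q q', PiLp.inner_apply]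
    refine Finset.sum_congr rfl fun p _ => ?_
    rw [Matrix.transpose_apply, hga, hga]
    simp [mul_comm]
  have h2 : g * g.transpose = 1 := mul_eq_one_comm.1 h1
  have h3 : X * g = g * Jmat x := by
    ext p ⟨j, q⟩
    have e0 : ∀ q', (X * g) p q' = (T (e q')).ofLp p := fun q' => by
      rw [Matrix.mul_apply, hTa]
      exact Finset.sum_congr rfl fun r _ => by rw [hga]
    rw [e0]
    fin_cases q
    · show (T (e (j, 0))).ofLp p = (g * Jmat x) p (j, 0)
      rw [(hx j).1, (an2_mul_J_apply x g p j).1, hga]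
      rfl
    · show (T (e (j, 1))).ofLp p = (g * Jmat x) p (j, 1)
      rw [(hx j).2, (an2_mul_J_apply x g p j).2, hga]
      rfl
  refine ⟨g, x, h2, ?_⟩
  rw [← h3, Matrix.mul_assoc, h2, Matrix.mul_one]

theorem an2_normal_so (X : An2M n) (hX : X.transpose = -X) : ∃ x : Vec n, An2Orb X x := by
  obtain ⟨g, x, hg, hXg⟩ := an2_normal_orth X hX
  rcases an2_orth_det g hg with hd | hd
  · exact ⟨x, ⟨⟨g, an2_so_mk g hg hd⟩, hXg⟩⟩
  · have hn : 0 < n := by
      rcases Nat.eq_zero_or_pos n with h0 | h0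
      · subst h0
        rw [Matrix.det_isEmpty] at hd
        norm_num at hd
      · exact h0
    obtain ⟨i₀, -⟩ : ∃ i₀ : Fin n, i₀ = ⟨0, hn⟩ := ⟨_, rfl⟩
    have hD := an2D_orth i₀
    have hg' : (g * an2D i₀) * (g * an2D i₀).transpose = 1 := by
      rw [Matrix.transpose_mul, Matrix.mul_assoc, ← Matrix.mul_assoc (an2D i₀), hD, Matrix.one_mul, hg]
    have hd' : (g * an2D i₀).det = 1 := by
      rw [Matrix.det_mul, hd, an2D_det]
      norm_num
    refine ⟨Function.update x i₀ (- x i₀), ⟨⟨g * an2D i₀, an2_so_mk _ hg' hd'⟩, ?_⟩⟩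
    show X = (g * an2D i₀) * Jmat (Function.update x i₀ (- x i₀)) * (g * an2D i₀).transpose
    have hc := an2D_conj i₀ (Function.update x i₀ (- x i₀))
    rw [Function.update_self, neg_neg, Function.update_idem, Function.update_eq_self] at hc
    rw [Matrix.transpose_mul, hXg, ← hc]
    simp only [Matrix.mul_assoc]

/-- **SP1** -/
theorem an2_normal_form (X : An2M n) (hX : X.transpose = -X) : ∃ x : Vec n, Dom x ∧ An2Orb X x := by
  obtain ⟨x, hx⟩ := an2_normal_so X hX
  obtain ⟨u, hu⟩ := sc_exists_dom x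
  exact ⟨u.act x, hu, (an2_orb_weyl X x u).2 hx⟩

end Claimed.Agent.R282
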