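import Claimed.Agent.R282.S2AB.AN2.Unique

/-!
# Row 282, package AN2, file 4: OPEN (trivial common centraliser ⇒ the labels fill a neighbourhood)

Architect: helper178.  Statements FROZEN; helper lemmas: prefix `an2o_`.  No paper.
LEAVES: L-AN2-O1 (section `Cent`), L-AN2-O2 (section `Perturb`), L-AN2-O3 (`an2_onto`), L-AN2-O4 (`an2_exp_mem`, `an2c_orb`, `an2c_strict`), L-AN2-O5 (`an2Theta_strict`).   The glue `an2_open` is proved.

ROUTES.
* `an2_cent_J`.  Blocks.  For `i ≠ j` compare the entries of `J(x) V = V J(x)` (`an2_J_mul_apply`, `an2_mul_J_apply`):  `x i V(i1,j0) = - x j V(i0,j1)`, `x i V(i1,j1) = x j V(i0,j0)`, `- x i V(i0,j0) = - x j V(i1,j1)`, `- x i V(i0,j1) = x j V(i1,j0)`;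
  so `(x i ^ 2 - x j ^ 2) V(ip,jq) = 0`.  For `i = j`: `V` skew ⇒ `V(ip,ip) = 0`, `V(i1,i0) = - V(i0,i1)`; `t i := V (i,0) (i,1)`.
* `an2_cent_Y0`.  Entry `((i,0),(j,1))` of `Y₀ J(t) = J(t) Y₀`, `i ≠ j`:  `t j Y₀((i,0),(j,0)) = t i Y₀((i,1),(j,1)) = 0`, `Y₀((i,0),(j,0)) = ± 1`.  `n ≥ 2`: every `j` has some `i ≠ j`.
* `an2_lin_perturb`.  `G` a left inverse of `C₀` (`LinearMap.exists_leftInverse_of_injective`), `K := G ∘ₗ C₁`.  `(C₀ + r C₁) v = 0`, `v ≠ 0` ⇒ `v + r K v = 0` ⇒ `r ≠ 0`, `K v = (- r⁻¹) v`: `- r⁻¹` is an eigenvalue of `K`.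
  `Module.End.finite_hasEigenvalue`, `Set.Finite.preimage` (`r ↦ - r⁻¹` is injective), `Set.Finite.subset`.
* `an2_triv_perturb`.  `C[X,Y] V := (X V - V X, Y V - V Y, V + Vᵀ)` is linear in `V`, injective iff `An2Triv X Y`, and `C[X₀ + r X, Y₀ + r Y] = C[X₀,Y₀] + r • C'`, `C' V = (X V - V X, Y V - V Y, 0)`.
* `an2_triv_small`.  The exceptional set of `r` is finite, `Set.Ioi (η⁻¹)` is infinite: take `r > η⁻¹` outside, `s := r⁻¹`; `X + s X₀ = s • (X₀ + r X)` and a nonzero scalar does not change the centraliser.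
* `an2_onto`.  `ad_X V := X V - V X`, `T' V := - ad_X (ad_X V) - ad_Y (ad_Y V) + (V + Vᵀ)` (a linear endomorphism of `An2M n`).  With `⟨A,B⟩ := trace (Aᵀ B)`: `⟨ad_X A, B⟩ = - ⟨A, ad_X B⟩` (`X` skew, `trace_mul_comm`), so
  `⟨T' V, V⟩ = ⟨ad_X V, ad_X V⟩ + ⟨ad_Y V, ad_Y V⟩ + ⟨V + Vᵀ, V + Vᵀ⟩ / 2`, all three `≥ 0` (`trace (Mᵀ M) = ∑∑ (M p q)^2`).  `T' V = 0` ⇒ `V` skew, commutes with `X, Y` ⇒ `V = 0`.  Injective ⇒ surjective (`LinearMap.injective_iff_surjective`).
  `T' Vᵀ = (T' V)ᵀ`.  Given `W` skew, `T' V = W`, `V₁ := (1/2) • (V - Vᵀ)`: `T' V₁ = W`, `V₁` skew.  `A := ad_X V₁`, `B := ad_Y V₁` are skew and `A X - X A + (B Y - Y B) = - ad_X A - ad_Y B = W`.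
* `an2_exp_mem`.  `(exp A)ᵀ = exp Aᵀ = exp (-A)` (`Matrix.exp_transpose`), `exp A * exp (-A) = 1` (`Matrix.exp_neg` / `NormedSpace.exp_add_of_commute`).  `det (exp A) = det (exp (A/2))^2 ≥ 0` (`exp A = exp (A/2) * exp (A/2)`), `an2_orth_det` ⇒ `det = 1`.
* `an2c_strict`.  `hasStrictFDerivAt_exp_zero` composed with `fst`, resp. `- fst`; `HasStrictFDerivAt.mul'` (noncommutative product rule) twice; `exp 0 = 1`; then identify the derivative (`ContinuousLinearMap.ext`, `simp`).
* `an2Theta_strict`.  `Θ` = sum of `an2c ∘ (continuous linear map)` (twice) and continuous linear maps.  Linear maps between finite dimensional spaces: `LinearMap.toContinuousLinearMap`; `HasStrictFDerivAt.comp`, `.add`, `.sub`, `.prodMk`.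
  `J` is linear (`an2_J_add`, `an2_J_smul`).
-/

set_option autoImplicit false

namespace Claimed.Agent.R282

open Matrix

variable {n : ℕ}

/-- the common centraliser of `X`, `Y` in the skew matrices is trivial -/
def An2Triv (X Y : An2M n) : Prop :=
  ∀ V : An2M n, V.transpose = -V → X * V = V * X → Y * V = V * Y → V = 0

section Cent

/-- `J(n, n-1, …, 1)` -/
def an2X0 (n : ℕ) : An2M n := Jmat (fun i => (n : ℝ) - ((i : ℕ) : ℝ))

/-- all blocks `(i, j)`, `i < j`, equal to `[[1, 0], [0, 0]]` -/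
def an2Y0 (n : ℕ) : An2M n :=
  fun p q => if p.2 = 0 ∧ q.2 = 0 then (if p.1 < q.1 then 1 else if q.1 < p.1 then -1 else 0) else 0

theorem an2o_fin2 (a : Fin 2) : a = 0 ∨ a = 1 := by
  fin_cases a <;> simp

theorem an2X0_skew : (an2X0 n).transpose = - an2X0 n := an2_J_transpose _

theorem an2Y0_skew : (an2Y0 n).transpose = - an2Y0 n := by
  ext p q
  simp only [Matrix.transpose_apply, Matrix.neg_apply, an2Y0]
  by_cases h : p.2 = 0 ∧ q.2 = 0
  · rw [if_pos h, if_pos h.symm]
    rcases lt_trichotomy p.1 q.1 with h1 | h1 | h1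
    · simp [h1, not_lt.2 h1.le]
    · simp [h1]
    · simp [h1, not_lt.2 h1.le]
  · rw [if_neg h, if_neg (fun h' => h h'.symm)]
    simp

theorem an2X0_bound (p q : Ix n) : |an2X0 n p q| ≤ n := by
  obtain ⟨i, a⟩ := p
  obtain ⟨j, b⟩ := q
  have hn : (0 : ℝ) ≤ n := Nat.cast_nonneg n
  have hi : |(n : ℝ) - ((i : ℕ) : ℝ)| ≤ n := by
    have h1 : ((i : ℕ) : ℝ) ≤ n := by exact_mod_cast i.2.le
    have h2 : (0 : ℝ) ≤ ((i : ℕ) : ℝ) := Nat.cast_nonneg _
    rw [abs_le]; constructor <;> linarith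
  by_cases hij : i = j
  · subst hij
    rcases an2o_fin2 a with rfl | rfl <;> rcases an2o_fin2 b with rfl | rfl
    · rw [an2X0, an2_J_diag]; simpa using hn
    · rw [an2X0, an2_J_01]; exact hi
    · rw [an2X0, an2_J_10, abs_neg]; exact hi
    · rw [an2X0, an2_J_diag]; simpa using hn
  · rw [an2X0, an2_J_ne _ hij]; simpa using hn

theorem an2Y0_bound (p q : Ix n) : |an2Y0 n p q| ≤ 1 := by
  simp only [an2Y0]
  split_ifs <;> simp

theorem an2_cent_J (x : Vec n) (hx : ∀ i j, i ≠ j → x i ^ 2 ≠ x j ^ 2) (V : An2M n) (hV : V.transpose = -V)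
    (h : Jmat x * V = V * Jmat x) : ∃ t : Vec n, V = Jmat t := by
  have hsk : ∀ p q, V q p = - V p q := fun p q => by
    have := congrFun (congrFun hV p) q
    simpa using this
  have hoff : ∀ i j, i ≠ j → ∀ a b : Fin 2, V (i, a) (j, b) = 0 := by
    intro i j hij
    have E1 := congrFun (congrFun h (i, 0)) (j, 0)
    have E2 := congrFun (congrFun h (i, 0)) (j, 1)
    have E3 := congrFun (congrFun h (i, 1)) (j, 0)
    have E4 := congrFun (congrFun h (i, 1)) (j, 1)
    rw [(an2_J_mul_apply x V i (j, 0)).1, (an2_mul_J_apply x V (i, 0) j).1] at E1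
    rw [(an2_J_mul_apply x V i (j, 1)).1, (an2_mul_J_apply x V (i, 0) j).2] at E2
    rw [(an2_J_mul_apply x V i (j, 0)).2, (an2_mul_J_apply x V (i, 1) j).1] at E3
    rw [(an2_J_mul_apply x V i (j, 1)).2, (an2_mul_J_apply x V (i, 1) j).2] at E4
    have hne : x i ^ 2 - x j ^ 2 ≠ 0 := sub_ne_zero.2 (hx i j hij)
    have z00 : V (i, 0) (j, 0) = 0 := by
      have : (x i ^ 2 - x j ^ 2) * V (i, 0) (j, 0) = 0 := by
        linear_combination (-(x i)) * E3 + (x j) * E2
      exact (mul_eq_zero.1 this).resolve_left hne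
    have z11 : V (i, 1) (j, 1) = 0 := by
      have : (x i ^ 2 - x j ^ 2) * V (i, 1) (j, 1) = 0 := by
        linear_combination (x i) * E2 - (x j) * E3
      exact (mul_eq_zero.1 this).resolve_left hne
    have z10 : V (i, 1) (j, 0) = 0 := by
      have : (x i ^ 2 - x j ^ 2) * V (i, 1) (j, 0) = 0 := by
        linear_combination (x i) * E1 + (x j) * E4
      exact (mul_eq_zero.1 this).resolve_left hne
    have z01 : V (i, 0) (j, 1) = 0 := by
      have : (x i ^ 2 - x j ^ 2) * V (i, 0) (j, 1) = 0 := by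
        linear_combination (-(x i)) * E4 - (x j) * E1
      exact (mul_eq_zero.1 this).resolve_left hne
    intro a b
    rcases an2o_fin2 a with rfl | rfl <;> rcases an2o_fin2 b with rfl | rfl <;> assumption
  refine ⟨fun i => V (i, 0) (i, 1), ?_⟩
  ext ⟨i, a⟩ ⟨j, b⟩
  by_cases hij : i = j
  · subst hij
    have hd : ∀ p, V p p = 0 := fun p => by
      have := hsk p p
      linarith
    rcases an2o_fin2 a with rfl | rfl <;> rcases an2o_fin2 b with rfl | rfl
    · rw [an2_J_diag, hd]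
    · rw [an2_J_01]
    · rw [an2_J_10, hsk]
    · rw [an2_J_diag, hd]
  · rw [an2_J_ne _ hij, hoff i j hij]

theorem an2_cent_Y0 (hn : 2 ≤ n) (t : Vec n) (h : an2Y0 n * Jmat t = Jmat t * an2Y0 n) : t = 0 := by
  funext j
  -- some `i ≠ j`
  obtain ⟨i, hij⟩ : ∃ i : Fin n, i ≠ j := by
    by_cases hj : (j : ℕ) = 0
    · exact ⟨⟨1, by omega⟩, fun e => by
        have := congrArg Fin.val e
        simp at this
        omega⟩
    · exact ⟨⟨0, by omega⟩, fun e => by
        have := congrArg Fin.val e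
        simp at this
        omega⟩
  have E := congrFun (congrFun h (i, 0)) (j, 1)
  rw [(an2_mul_J_apply t (an2Y0 n) (i, 0) j).2, (an2_J_mul_apply t (an2Y0 n) i (j, 1)).1] at E
  have e1 : an2Y0 n (i, 1) (j, 1) = 0 := by simp [an2Y0]
  have e2 : an2Y0 n (i, 0) (j, 0) ≠ 0 := by
    simp only [an2Y0]
    rcases lt_or_gt_of_ne hij with h1 | h1
    · simp [h1]
    · simp [h1, not_lt.2 h1.le]
  rw [e1, mul_zero] at E
  simpa using (mul_eq_zero.1 E).resolve_right e2

theorem an2_triv0 (hn : 2 ≤ n) : An2Triv (an2X0 n) (an2Y0 n) := by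
  intro V hV hX hY
  have hx : ∀ i j : Fin n, i ≠ j →
      ((n : ℝ) - ((i : ℕ) : ℝ)) ^ 2 ≠ ((n : ℝ) - ((j : ℕ) : ℝ)) ^ 2 := by
    intro i j hij heq
    have hi : (0 : ℝ) < (n : ℝ) - ((i : ℕ) : ℝ) := by
      have : ((i : ℕ) : ℝ) < n := by exact_mod_cast i.2
      linarith
    have hj : (0 : ℝ) < (n : ℝ) - ((j : ℕ) : ℝ) := by
      have : ((j : ℕ) : ℝ) < n := by exact_mod_cast j.2
      linarith
    have := (pow_left_inj₀ hi.le hj.le (by norm_num)).1 heq
    have h2 : ((i : ℕ) : ℝ) = ((j : ℕ) : ℝ) := by linarith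
    exact hij (Fin.ext (by exact_mod_cast h2))
  obtain ⟨t, rfl⟩ := an2_cent_J _ hx V hV hX
  rw [an2_cent_Y0 hn t hY, an2_J_zero]

end Cent

section Perturb

theorem an2_lin_perturb {V W : Type*} [AddCommGroup V] [Module ℝ V] [FiniteDimensional ℝ V] [AddCommGroup W]
    [Module ℝ W] (C₀ C₁ : V →ₗ[ℝ] W) (h : Function.Injective C₀) :
    {r : ℝ | ¬ Function.Injective (C₀ + r • C₁)}.Finite := by
  obtain ⟨G, hG⟩ := LinearMap.exists_leftInverse_of_injective C₀ (LinearMap.ker_eq_bot.2 h)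
  have hfin : {μ : ℝ | Module.End.HasEigenvalue (G ∘ₗ C₁) μ}.Finite :=
    Module.End.finite_hasEigenvalue (G ∘ₗ C₁)
  have hinj : Function.Injective (fun r : ℝ => -r⁻¹) := fun a b hab => by
    have : a⁻¹ = b⁻¹ := neg_injective hab
    exact inv_injective this
  refine (hfin.preimage (hinj.injOn)).subset ?_
  intro r hr
  have hr' : ¬ Function.Injective (C₀ + r • C₁) := hr
  rw [← LinearMap.ker_eq_bot, Submodule.eq_bot_iff] at hr'
  push Not at hr'
  obtain ⟨v, hv, hv0⟩ := hr'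
  have h1 : C₀ v + r • C₁ v = 0 := by simpa using hv
  have h2 : v + r • (G ∘ₗ C₁) v = 0 := by
    have := congrArg G h1
    rw [map_add, map_smul, map_zero] at this
    have e : G (C₀ v) = v := by
      have := LinearMap.congr_fun hG v
      simpa using this
    rw [e] at this
    simpa using this
  have hr0 : r ≠ 0 := by
    rintro rfl
    apply hv0
    simpa using h2
  show Module.End.HasEigenvalue (G ∘ₗ C₁) (-r⁻¹)
  refine Module.End.hasEigenvalue_of_hasEigenvector (x := v) ⟨?_, hv0⟩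
  rw [Module.End.mem_eigenspace_iff]
  have h3 : r • (G ∘ₗ C₁) v = -v := by
    rw [eq_neg_iff_add_eq_zero, add_comm]; exact h2
  calc (G ∘ₗ C₁) v = r⁻¹ • (r • (G ∘ₗ C₁) v) := by rw [smul_smul, inv_mul_cancel₀ hr0, one_smul]
    _ = (-r⁻¹) • v := by rw [h3, smul_neg, neg_smul]

/-- `V ↦ (X V - V X, Y V - V Y, c (V + Vᵀ))` -/
def an2o_C (X Y : An2M n) (c : ℝ) : An2M n →ₗ[ℝ] An2M n × An2M n × An2M n where
  toFun V := (X * V - V * X, Y * V - V * Y, c • (V + V.transpose))
  map_add' V W := by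
    simp only [Matrix.mul_add, Matrix.add_mul, Matrix.transpose_add, Prod.mk_add_mk, smul_add]
    refine Prod.ext ?_ (Prod.ext ?_ ?_) <;> simp only <;> abel
  map_smul' r V := by
    simp only [Matrix.mul_smul, Matrix.smul_mul, Matrix.transpose_smul, RingHom.id_apply, Prod.smul_mk,
      smul_sub, smul_add]
    refine Prod.ext rfl (Prod.ext rfl ?_)
    simp only [smul_comm c r]

theorem an2o_C_inj (X Y : An2M n) : Function.Injective (an2o_C X Y 1) ↔ An2Triv X Y := by
  rw [← LinearMap.ker_eq_bot, Submodule.eq_bot_iff]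
  constructor
  · intro h V hV hX hY
    apply h V
    rw [LinearMap.mem_ker]
    show (X * V - V * X, Y * V - V * Y, (1 : ℝ) • (V + V.transpose)) = 0
    rw [hX, hY, hV]
    simp
  · intro h V hV
    rw [LinearMap.mem_ker] at hV
    have hV' : (X * V - V * X, Y * V - V * Y, (1 : ℝ) • (V + V.transpose)) = 0 := hV
    simp only [Prod.mk_eq_zero, one_smul] at hV'
    obtain ⟨h1, h2, h3⟩ := hV'
    exact h V (by rw [eq_neg_iff_add_eq_zero, add_comm]; exact h3) (sub_eq_zero.1 h1) (sub_eq_zero.1 h2)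

theorem an2_triv_perturb (X₀ Y₀ X Y : An2M n) (h : An2Triv X₀ Y₀) :
    {r : ℝ | ¬ An2Triv (X₀ + r • X) (Y₀ + r • Y)}.Finite := by
  have := an2_lin_perturb (an2o_C X₀ Y₀ 1) (an2o_C X Y 0) ((an2o_C_inj X₀ Y₀).2 h)
  refine this.subset ?_
  intro r hr
  have hr' : ¬ An2Triv (X₀ + r • X) (Y₀ + r • Y) := hr
  rw [← an2o_C_inj] at hr'
  have e : an2o_C (X₀ + r • X) (Y₀ + r • Y) 1 = an2o_C X₀ Y₀ 1 + r • an2o_C X Y 0 := by
    ext V : 1
    show ((X₀ + r • X) * V - V * (X₀ + r • X), (Y₀ + r • Y) * V - V * (Y₀ + r • Y),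
        (1 : ℝ) • (V + V.transpose))
      = (X₀ * V - V * X₀, Y₀ * V - V * Y₀, (1 : ℝ) • (V + V.transpose))
        + r • (X * V - V * X, Y * V - V * Y, (0 : ℝ) • (V + V.transpose))
    simp only [Matrix.add_mul, Matrix.mul_add, Matrix.smul_mul, Matrix.mul_smul, Prod.smul_mk,
      Prod.mk_add_mk, smul_sub, zero_smul, smul_zero, add_zero]
    refine Prod.ext ?_ (Prod.ext ?_ rfl) <;> simp only <;> abel
  rw [e] at hr'
  exact hr'

theorem an2_triv_small (X₀ Y₀ X Y : An2M n) (h : An2Triv X₀ Y₀) (η : ℝ) (hη : 0 < η) :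
    ∃ s : ℝ, 0 < s ∧ s < η ∧ An2Triv (X + s • X₀) (Y + s • Y₀) := by
  have hfin := an2_triv_perturb X₀ Y₀ X Y h
  obtain ⟨r, hr1, hr2⟩ := ((Set.Ioi_infinite (η⁻¹)).sdiff hfin).nonempty
  have hr1' : η⁻¹ < r := hr1
  have hr0 : 0 < r := lt_trans (inv_pos.2 hη) hr1'
  have hr2' : An2Triv (X₀ + r • X) (Y₀ + r • Y) := by
    by_contra hc
    exact hr2 hc
  refine ⟨r⁻¹, inv_pos.2 hr0, ?_, ?_⟩
  · rw [inv_lt_comm₀ hr0 hη]; exact hr1'
  · intro V hV hX hY
    apply hr2' V hV
    · have e : X₀ + r • X = r • (X + r⁻¹ • X₀) := by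
        rw [smul_add, smul_smul, mul_inv_cancel₀ hr0.ne', one_smul, add_comm]
      rw [e, Matrix.smul_mul, Matrix.mul_smul, hX]
    · have e : Y₀ + r • Y = r • (Y + r⁻¹ • Y₀) := by
        rw [smul_add, smul_smul, mul_inv_cancel₀ hr0.ne', one_smul, add_comm]
      rw [e, Matrix.smul_mul, Matrix.mul_smul, hY]

end Perturb

theorem an2o_tr_sq (M : An2M n) : (M.transpose * M).trace = ∑ p, ∑ q, (M q p) ^ 2 := by
  simp [Matrix.trace, Matrix.mul_apply, sq]

theorem an2o_tr_nonneg (M : An2M n) : 0 ≤ (M.transpose * M).trace := by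
  rw [an2o_tr_sq]
  exact Finset.sum_nonneg fun p _ => Finset.sum_nonneg fun q _ => sq_nonneg _

theorem an2o_tr_eq_zero {M : An2M n} (h : (M.transpose * M).trace = 0) : M = 0 := by
  rw [an2o_tr_sq] at h
  ext q p
  have h1 := (Finset.sum_eq_zero_iff_of_nonneg
    (fun p _ => Finset.sum_nonneg fun q _ => sq_nonneg (M q p))).1 h p (Finset.mem_univ _)
  have h2 := (Finset.sum_eq_zero_iff_of_nonneg (fun q _ => sq_nonneg (M q p))).1 h1 q (Finset.mem_univ _)
  simpa using h2

/-- `ad_X` is skew for the trace form if `X` is skew -/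
theorem an2o_ad_skew {X : An2M n} (hX : X.transpose = -X) (A B : An2M n) :
    ((X * A - A * X).transpose * B).trace = -(A.transpose * (X * B - B * X)).trace := by
  rw [Matrix.transpose_sub, Matrix.transpose_mul, Matrix.transpose_mul, hX]
  have h1 : (X * (A.transpose * B)).trace = ((A.transpose * B) * X).trace := Matrix.trace_mul_comm _ _
  simp only [Matrix.mul_neg, Matrix.neg_mul, Matrix.sub_mul, Matrix.mul_sub, Matrix.trace_sub,
    Matrix.trace_neg, Matrix.mul_assoc] at h1 ⊢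
  rw [h1]
  ring

theorem an2o_ad_transpose {X : An2M n} (hX : X.transpose = -X) (V : An2M n) :
    (X * V - V * X).transpose = X * V.transpose - V.transpose * X := by
  rw [Matrix.transpose_sub, Matrix.transpose_mul, Matrix.transpose_mul, hX]
  simp only [Matrix.mul_neg, Matrix.neg_mul]
  abel

/-- the operator `T'` -/
def an2o_T (X Y : An2M n) : An2M n →ₗ[ℝ] An2M n where
  toFun V := -(X * (X * V - V * X) - (X * V - V * X) * X) - (Y * (Y * V - V * Y) - (Y * V - V * Y) * Y)
    + (V + V.transpose)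
  map_add' V W := by
    simp only [Matrix.mul_add, Matrix.add_mul, Matrix.transpose_add, Matrix.mul_sub, Matrix.sub_mul]
    abel
  map_smul' r V := by
    simp only [Matrix.mul_smul, Matrix.smul_mul, Matrix.transpose_smul, RingHom.id_apply, ← smul_sub,
      ← smul_add, ← smul_neg]

theorem an2o_T_apply (X Y V : An2M n) : an2o_T X Y V =
    -(X * (X * V - V * X) - (X * V - V * X) * X) - (Y * (Y * V - V * Y) - (Y * V - V * Y) * Y)
    + (V + V.transpose) := rfl

theorem an2o_T_form {X Y : An2M n} (hX : X.transpose = -X) (hY : Y.transpose = -Y) (V : An2M n) :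
    ((an2o_T X Y V).transpose * V).trace = ((X * V - V * X).transpose * (X * V - V * X)).trace
      + ((Y * V - V * Y).transpose * (Y * V - V * Y)).trace
      + ((V + V.transpose).transpose * (V + V.transpose)).trace / 2 := by
  have h1 := an2o_ad_skew hX (X * V - V * X) V
  have h2 := an2o_ad_skew hY (Y * V - V * Y) V
  have h3 : ((V + V.transpose).transpose * (V + V.transpose)).trace
      = 2 * ((V + V.transpose).transpose * V).trace := by
    have e1 : (V.transpose * V.transpose).trace = (V * V).trace := by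
      rw [← Matrix.transpose_mul, Matrix.trace_transpose]
    have e2 : (V * V.transpose).trace = (V.transpose * V).trace := Matrix.trace_mul_comm _ _
    simp only [Matrix.transpose_add, Matrix.transpose_transpose, Matrix.add_mul, Matrix.mul_add,
      Matrix.trace_add, e1, e2]
    ring
  rw [an2o_T_apply, Matrix.transpose_add, Matrix.transpose_sub, Matrix.transpose_neg, Matrix.add_mul,
    Matrix.sub_mul, Matrix.neg_mul, Matrix.trace_add, Matrix.trace_sub, Matrix.trace_neg, h1, h2, h3]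
  ring

theorem an2o_T_inj {X Y : An2M n} (hX : X.transpose = -X) (hY : Y.transpose = -Y) (h : An2Triv X Y) :
    Function.Injective (an2o_T X Y) := by
  rw [← LinearMap.ker_eq_bot, Submodule.eq_bot_iff]
  intro V hV
  rw [LinearMap.mem_ker] at hV
  have hf := an2o_T_form hX hY V
  rw [hV, Matrix.transpose_zero, Matrix.zero_mul, Matrix.trace_zero] at hf
  have a := an2o_tr_nonneg (X * V - V * X)
  have b := an2o_tr_nonneg (Y * V - V * Y)
  have c := an2o_tr_nonneg (V + V.transpose)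
  have ha := an2o_tr_eq_zero (M := X * V - V * X) (by linarith)
  have hb := an2o_tr_eq_zero (M := Y * V - V * Y) (by linarith)
  have hc := an2o_tr_eq_zero (M := V + V.transpose) (by linarith)
  exact h V (by rw [eq_neg_iff_add_eq_zero, add_comm]; exact hc) (sub_eq_zero.1 ha) (sub_eq_zero.1 hb)

theorem an2o_T_transpose {X Y : An2M n} (hX : X.transpose = -X) (hY : Y.transpose = -Y) (V : An2M n) :
    an2o_T X Y V.transpose = (an2o_T X Y V).transpose := by
  rw [an2o_T_apply, an2o_T_apply, Matrix.transpose_add, Matrix.transpose_sub, Matrix.transpose_neg,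
    an2o_ad_transpose hX, an2o_ad_transpose hY, an2o_ad_transpose hX, an2o_ad_transpose hY,
    Matrix.transpose_add]

/-- O3: the infinitesimal action is onto -/
theorem an2_onto (X Y : An2M n) (hX : X.transpose = -X) (hY : Y.transpose = -Y) (h : An2Triv X Y)
    (W : An2M n) (hW : W.transpose = -W) :
    ∃ A B : An2M n, A.transpose = -A ∧ B.transpose = -B ∧ A * X - X * A + (B * Y - Y * B) = W := by
  obtain ⟨V, hV⟩ := (LinearMap.injective_iff_surjective.1 (an2o_T_inj hX hY h)) W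
  set V₁ : An2M n := (1 / 2 : ℝ) • (V - V.transpose) with hV₁
  have hs : V₁.transpose = -V₁ := by
    rw [hV₁, Matrix.transpose_smul, Matrix.transpose_sub, Matrix.transpose_transpose, ← smul_neg, neg_sub]
  have hT : an2o_T X Y V₁ = W := by
    rw [hV₁, map_smul, map_sub, an2o_T_transpose hX hY, hV, hW, sub_neg_eq_add, ← two_smul ℝ W, smul_smul]
    norm_num
  refine ⟨X * V₁ - V₁ * X, Y * V₁ - V₁ * Y, ?_, ?_, ?_⟩
  · rw [an2o_ad_transpose hX, hs]
    simp only [Matrix.mul_neg, Matrix.neg_mul]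
    abel
  · rw [an2o_ad_transpose hY, hs]
    simp only [Matrix.mul_neg, Matrix.neg_mul]
    abel
  · rw [← hT, an2o_T_apply, hs]
    abel

section Exp

attribute [local instance] Matrix.linftyOpNormedRing Matrix.linftyOpNormedAlgebra

theorem an2o_exp_mul_neg (A : An2M n) : NormedSpace.exp A * NormedSpace.exp (-A) = 1 := by
  rw [← Matrix.exp_add_of_commute A (-A) (Commute.neg_right (Commute.refl A)), add_neg_cancel,
    NormedSpace.exp_zero]

theorem an2_exp_mem (A : An2M n) (hA : A.transpose = -A) :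
    NormedSpace.exp A ∈ Matrix.specialOrthogonalGroup (Ix n) ℝ ∧
      (NormedSpace.exp A).transpose = NormedSpace.exp (-A) := by
  have ht : (NormedSpace.exp A).transpose = NormedSpace.exp (-A) := by
    rw [← Matrix.exp_transpose, hA]
  refine ⟨?_, ht⟩
  have h1 : NormedSpace.exp A * (NormedSpace.exp A).transpose = 1 := by
    rw [ht, an2o_exp_mul_neg]
  refine an2_so_mk _ h1 ?_
  have h2 : NormedSpace.exp A = NormedSpace.exp ((1 / 2 : ℝ) • A) * NormedSpace.exp ((1 / 2 : ℝ) • A) := by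
    rw [← Matrix.exp_add_of_commute _ _ (Commute.refl _), ← add_smul]
    norm_num
  have h3 : 0 ≤ (NormedSpace.exp A).det := by
    rw [h2, Matrix.det_mul]
    exact mul_self_nonneg _
  rcases an2_orth_det _ h1 with h | h
  · exact h
  · rw [h] at h3
    norm_num at h3

/-- conjugation by the exponential -/
noncomputable def an2c (p : An2M n × An2M n) : An2M n :=
  NormedSpace.exp p.1 * p.2 * NormedSpace.exp (-p.1)

theorem an2c_orb (A : An2M n) (hA : A.transpose = -A) {X : An2M n} {x : Vec n} (h : An2Orb X x) :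
    An2Orb (an2c (A, X)) x := by
  obtain ⟨g, rfl⟩ := h
  obtain ⟨hm, ht⟩ := an2_exp_mem A hA
  refine ⟨⟨NormedSpace.exp A, hm⟩ * g, ?_⟩
  show NormedSpace.exp A * (g.1 * Jmat x * g.1.transpose) * NormedSpace.exp (-A)
    = (NormedSpace.exp A * g.1) * Jmat x * (NormedSpace.exp A * g.1).transpose
  rw [Matrix.transpose_mul, ht]
  simp only [Matrix.mul_assoc]

theorem an2c_strict (M₀ : An2M n) : ∃ D : An2M n × An2M n →L[ℝ] An2M n,
    (∀ A M, D (A, M) = A * M₀ - M₀ * A + M) ∧ HasStrictFDerivAt an2c D (0, M₀) := by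
  have e0 : HasStrictFDerivAt (NormedSpace.exp : An2M n → An2M n) (1 : An2M n →L[ℝ] An2M n) 0 :=
    hasStrictFDerivAt_exp_zero
  have e1 : HasStrictFDerivAt (NormedSpace.exp : An2M n → An2M n) (1 : An2M n →L[ℝ] An2M n)
      ((0, M₀) : An2M n × An2M n).1 := e0
  have e2 : HasStrictFDerivAt (NormedSpace.exp : An2M n → An2M n) (1 : An2M n →L[ℝ] An2M n)
      (-((0, M₀) : An2M n × An2M n).1) := by
    have : -((0, M₀) : An2M n × An2M n).1 = 0 := by simp
    rw [this]; exact e0
  have f1 := e1.comp ((0, M₀) : An2M n × An2M n) hasStrictFDerivAt_fst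
  have f2 : HasStrictFDerivAt (fun p : An2M n × An2M n => p.2)
      (ContinuousLinearMap.snd ℝ (An2M n) (An2M n)) (0, M₀) := hasStrictFDerivAt_snd
  have f3 := e2.comp ((0, M₀) : An2M n × An2M n) (f := fun p : An2M n × An2M n => -p.1)
    hasStrictFDerivAt_fst.neg
  have f4 := (f1.mul' f2).mul' f3
  refine ⟨_, ?_, f4⟩
  intro A M
  show (NormedSpace.exp (0 : An2M n) * M₀) * (-A)
    + (NormedSpace.exp (0 : An2M n) * M + A * M₀) * NormedSpace.exp (-(0 : An2M n)) = _
  rw [neg_zero, NormedSpace.exp_zero, one_mul, one_mul, mul_one, mul_neg]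
  abel

/-- the map of O4; `S` is a dummy variable which makes the target the full matrix space -/
noncomputable def an2Theta (g h k : An2M n)
    (p : (An2M n × An2M n × An2M n) × (Vec n × Vec n × Vec n)) : An2M n × (Vec n × Vec n × Vec n) :=
  (an2c (p.1.1 - p.1.1.transpose, g * Jmat p.2.1 * g.transpose)
    + an2c (p.1.2.1 - p.1.2.1.transpose, h * Jmat p.2.2.1 * h.transpose)
    - k * Jmat p.2.2.2 * k.transpose + (p.1.2.2 + p.1.2.2.transpose), p.2)

/-- `x ↦ g J(x) gᵀ` -/
noncomputable def an2o_cJ (g : An2M n) : Vec n →L[ℝ] An2M n :=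
  LinearMap.toContinuousLinearMap
    { toFun := fun x => g * Jmat x * g.transpose
      map_add' := fun x y => by rw [an2_J_add, Matrix.mul_add, Matrix.add_mul]
      map_smul' := fun r x => by
        rw [an2_J_smul, Matrix.mul_smul, Matrix.smul_mul, RingHom.id_apply] }

/-- `A ↦ A + c Aᵀ` -/
noncomputable def an2o_tr (c : ℝ) : An2M n →L[ℝ] An2M n :=
  LinearMap.toContinuousLinearMap
    { toFun := fun A => A + c • A.transpose
      map_add' := fun x y => by rw [Matrix.transpose_add, smul_add]; abel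
      map_smul' := fun r x => by
        rw [Matrix.transpose_smul, RingHom.id_apply, smul_add, smul_comm] }

theorem an2Theta_strict (g h k : An2M n) (a₀ b₀ c₀ : Vec n) :
    ∃ D : (An2M n × An2M n × An2M n) × (Vec n × Vec n × Vec n) →L[ℝ] An2M n × (Vec n × Vec n × Vec n),
      (∀ A B S α β γ, D ((A, B, S), (α, β, γ)) =
        ((A - A.transpose) * (g * Jmat a₀ * g.transpose) - (g * Jmat a₀ * g.transpose) * (A - A.transpose)
            + g * Jmat α * g.transpose
          + ((B - B.transpose) * (h * Jmat b₀ * h.transpose) - (h * Jmat b₀ * h.transpose) * (B - B.transpose)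
            + h * Jmat β * h.transpose)
          - k * Jmat γ * k.transpose + (S + S.transpose), (α, β, γ))) ∧
      HasStrictFDerivAt (an2Theta g h k) D ((0, 0, 0), (a₀, b₀, c₀)) := by
  obtain ⟨D₁, hD₁, hs₁⟩ := an2c_strict (g * Jmat a₀ * g.transpose)
  obtain ⟨D₂, hD₂, hs₂⟩ := an2c_strict (h * Jmat b₀ * h.transpose)
  let E := (An2M n × An2M n × An2M n) × (Vec n × Vec n × Vec n)
  let pA : E →L[ℝ] An2M n := (ContinuousLinearMap.fst ℝ _ _).comp (ContinuousLinearMap.fst ℝ _ _)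
  let pB : E →L[ℝ] An2M n := (ContinuousLinearMap.fst ℝ _ _).comp
    ((ContinuousLinearMap.snd ℝ _ _).comp (ContinuousLinearMap.fst ℝ _ _))
  let pS : E →L[ℝ] An2M n := (ContinuousLinearMap.snd ℝ _ _).comp
    ((ContinuousLinearMap.snd ℝ _ _).comp (ContinuousLinearMap.fst ℝ _ _))
  let pa : E →L[ℝ] Vec n := (ContinuousLinearMap.fst ℝ _ _).comp (ContinuousLinearMap.snd ℝ _ _)
  let pb : E →L[ℝ] Vec n := (ContinuousLinearMap.fst ℝ _ _).comp
    ((ContinuousLinearMap.snd ℝ _ _).comp (ContinuousLinearMap.snd ℝ _ _))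
  let pc : E →L[ℝ] Vec n := (ContinuousLinearMap.snd ℝ _ _).comp
    ((ContinuousLinearMap.snd ℝ _ _).comp (ContinuousLinearMap.snd ℝ _ _))
  let L₁ : E →L[ℝ] An2M n × An2M n := ((an2o_tr (-1)).comp pA).prod ((an2o_cJ g).comp pa)
  let L₂ : E →L[ℝ] An2M n × An2M n := ((an2o_tr (-1)).comp pB).prod ((an2o_cJ h).comp pb)
  let L₃ : E →L[ℝ] An2M n := (an2o_cJ k).comp pc
  let L₄ : E →L[ℝ] An2M n := (an2o_tr 1).comp pS
  let x₀ : E := ((0, 0, 0), (a₀, b₀, c₀))
  have e₁ : L₁ x₀ = (0, g * Jmat a₀ * g.transpose) := by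
    show ((0 : An2M n) + (-1 : ℝ) • (0 : An2M n).transpose, g * Jmat a₀ * g.transpose) = _
    simp
  have e₂ : L₂ x₀ = (0, h * Jmat b₀ * h.transpose) := by
    show ((0 : An2M n) + (-1 : ℝ) • (0 : An2M n).transpose, h * Jmat b₀ * h.transpose) = _
    simp
  rw [← e₁] at hs₁
  rw [← e₂] at hs₂
  have s₁ := hs₁.comp x₀ L₁.hasStrictFDerivAt
  have s₂ := hs₂.comp x₀ L₂.hasStrictFDerivAt
  have s := (((s₁.add s₂).sub L₃.hasStrictFDerivAt).add L₄.hasStrictFDerivAt).prodMk
    (ContinuousLinearMap.snd ℝ (An2M n × An2M n × An2M n) (Vec n × Vec n × Vec n)).hasStrictFDerivAt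
  refine ⟨_, ?_, s.congr_of_eventuallyEq (Filter.Eventually.of_forall fun p => ?_)⟩
  · intro A B S α β γ
    show (D₁ (A + (-1 : ℝ) • A.transpose, g * Jmat α * g.transpose)
      + D₂ (B + (-1 : ℝ) • B.transpose, h * Jmat β * h.transpose) - k * Jmat γ * k.transpose
      + (S + (1 : ℝ) • S.transpose), (α, β, γ)) = _
    rw [hD₁, hD₂]
    simp only [neg_smul, one_smul, ← sub_eq_add_neg]
  · show (an2c (p.1.1 + (-1 : ℝ) • p.1.1.transpose, g * Jmat p.2.1 * g.transpose)
      + an2c (p.1.2.1 + (-1 : ℝ) • p.1.2.1.transpose, h * Jmat p.2.2.1 * h.transpose)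
      - k * Jmat p.2.2.2 * k.transpose + (p.1.2.2 + (1 : ℝ) • p.1.2.2.transpose), p.2) = an2Theta g h k p
    simp only [neg_smul, one_smul, ← sub_eq_add_neg, an2Theta]

/-- skew + symmetric = 0 -/
theorem an2_skew_add_symm (M S : An2M n) (hM : M.transpose = -M) (h : M + (S + S.transpose) = 0) : M = 0 := by
  have h1 : M = -(S + S.transpose) := eq_neg_of_add_eq_zero_left h
  have h2 : M.transpose = M := by
    rw [h1]
    simp [Matrix.transpose_add, add_comm]
  have h3 : M = -M := by rw [← hM, h2]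
  have h4 : (2 : ℝ) • M = 0 := by
    rw [two_smul]
    nth_rewrite 2 [h3]
    simp
  simpa using h4

/-- **O4**: at a triple with trivial common centraliser all nearby labels are moment triples. -/
theorem an2_open (X Y : An2M n) (a₀ b₀ c₀ : Vec n) (hX : An2Orb X a₀) (hY : An2Orb Y b₀)
    (hZ : An2Orb (X + Y) c₀) (ht : An2Triv X Y) :
    ∃ δ > 0, ∀ a b c : Vec n, dist a a₀ < δ → dist b b₀ < δ → dist c c₀ < δ → MomentD a b c := by
  have hXs := an2_orb_skew hX
  have hYs := an2_orb_skew hY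
  obtain ⟨g, rfl⟩ := hX
  obtain ⟨h, rfl⟩ := hY
  obtain ⟨k, hk⟩ := hZ
  obtain ⟨D, hD, hstrict⟩ := an2Theta_strict g.1 h.1 k.1 a₀ b₀ c₀
  -- surjectivity of the derivative
  have hsurj : D.range = ⊤ := by
    rw [LinearMap.range_eq_top]
    rintro ⟨W, α, β, γ⟩
    set W' : An2M n := W - (g.1 * Jmat α * g.1.transpose + h.1 * Jmat β * h.1.transpose
      - k.1 * Jmat γ * k.1.transpose) with hW'
    have hsk : (((1 : ℝ) / 2) • (W' - W'.transpose)).transpose = -(((1 : ℝ) / 2) • (W' - W'.transpose)) := by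
      rw [Matrix.transpose_smul, Matrix.transpose_sub, Matrix.transpose_transpose, ← smul_neg, neg_sub]
    obtain ⟨A, B, hA, hB, hAB⟩ := an2_onto _ _ hXs hYs ht _ hsk
    refine ⟨((((1 : ℝ) / 2) • A, ((1 : ℝ) / 2) • B, ((1 : ℝ) / 4) • (W' + W'.transpose)), (α, β, γ)), ?_⟩
    have e1 : ((1 : ℝ) / 2) • A - (((1 : ℝ) / 2) • A).transpose = A := by
      rw [Matrix.transpose_smul, hA, smul_neg, sub_neg_eq_add, ← add_smul]
      norm_num
    have e2 : ((1 : ℝ) / 2) • B - (((1 : ℝ) / 2) • B).transpose = B := by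
      rw [Matrix.transpose_smul, hB, smul_neg, sub_neg_eq_add, ← add_smul]
      norm_num
    have e3 : ((1 : ℝ) / 4) • (W' + W'.transpose) + (((1 : ℝ) / 4) • (W' + W'.transpose)).transpose
        = ((1 : ℝ) / 2) • (W' + W'.transpose) := by
      rw [Matrix.transpose_smul, Matrix.transpose_add, Matrix.transpose_transpose, add_comm W'.transpose W',
        ← add_smul]
      norm_num
    show D _ = _
    rw [hD, e1, e2, e3]
    refine Prod.ext ?_ rfl
    show _ = W
    have e4 : W = W' + (g.1 * Jmat α * g.1.transpose + h.1 * Jmat β * h.1.transpose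
      - k.1 * Jmat γ * k.1.transpose) := by rw [hW']; abel
    have e5 : W' = ((1 : ℝ) / 2) • (W' - W'.transpose) + ((1 : ℝ) / 2) • (W' + W'.transpose) := by
      rw [← smul_add]
      have : W' - W'.transpose + (W' + W'.transpose) = (2 : ℝ) • W' := by rw [two_smul]; abel
      rw [this, smul_smul]
      norm_num
    rw [e4]
    nth_rewrite 3 [e5]
    rw [← hAB]
    abel_nf
  have hmap := hstrict.map_nhds_eq_of_surj hsurj
  have hval : an2Theta g.1 h.1 k.1 ((0, 0, 0), (a₀, b₀, c₀)) = (0, (a₀, b₀, c₀)) := by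
    refine Prod.ext ?_ rfl
    simp only [an2Theta, an2c, Matrix.transpose_zero, sub_zero, neg_zero, NormedSpace.exp_zero, one_mul, mul_one,
      add_zero]
    rw [hk, sub_self]
  have hrange := hmap.symm.le (show Set.range (an2Theta g.1 h.1 k.1) ∈ _ from
    Filter.mem_map.2 (Filter.univ_mem' fun p => ⟨p, rfl⟩))
  rw [hval] at hrange
  obtain ⟨δ, hδ, hball⟩ := Metric.mem_nhds_iff.1 hrange
  refine ⟨δ, hδ, fun a b c ha hb hc => ?_⟩
  have hmem : ((0 : An2M n), (a, b, c)) ∈ Metric.ball ((0 : An2M n), (a₀, b₀, c₀)) δ := by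
    rw [Metric.mem_ball, Prod.dist_eq, Prod.dist_eq, Prod.dist_eq, dist_self]
    simp only [max_lt_iff]
    exact ⟨hδ, ha, hb, hc⟩
  obtain ⟨⟨⟨A, B, S⟩, a', b', c'⟩, hp⟩ := hball hmem
  have hp2 : (a', b', c') = (a, b, c) := congrArg Prod.snd hp
  obtain ⟨rfl, rfl, rfl⟩ : a' = a ∧ b' = b ∧ c' = c := by
    simpa [Prod.ext_iff] using hp2
  have hp1 : an2c (A - A.transpose, g.1 * Jmat a' * g.1.transpose)
      + an2c (B - B.transpose, h.1 * Jmat b' * h.1.transpose)
      - k.1 * Jmat c' * k.1.transpose + (S + S.transpose) = 0 := congrArg Prod.fst hp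
  have hAs : (A - A.transpose).transpose = -(A - A.transpose) := by
    rw [Matrix.transpose_sub, Matrix.transpose_transpose, neg_sub]
  have hBs : (B - B.transpose).transpose = -(B - B.transpose) := by
    rw [Matrix.transpose_sub, Matrix.transpose_transpose, neg_sub]
  have o1 : An2Orb (an2c (A - A.transpose, g.1 * Jmat a' * g.1.transpose)) a' := an2c_orb _ hAs ⟨g, rfl⟩
  have o2 : An2Orb (an2c (B - B.transpose, h.1 * Jmat b' * h.1.transpose)) b' := an2c_orb _ hBs ⟨h, rfl⟩
  have o3 : An2Orb (k.1 * Jmat c' * k.1.transpose) c' := ⟨k, rfl⟩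
  have hsk : (an2c (A - A.transpose, g.1 * Jmat a' * g.1.transpose)
      + an2c (B - B.transpose, h.1 * Jmat b' * h.1.transpose)
      - k.1 * Jmat c' * k.1.transpose).transpose = -(an2c (A - A.transpose, g.1 * Jmat a' * g.1.transpose)
      + an2c (B - B.transpose, h.1 * Jmat b' * h.1.transpose)
      - k.1 * Jmat c' * k.1.transpose) := by
    rw [Matrix.transpose_sub, Matrix.transpose_add, an2_orb_skew o1, an2_orb_skew o2, an2_orb_skew o3]
    abel
  have hzero := an2_skew_add_symm _ S hsk hp1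
  refine (an2_moment_iff _ _ _).2 ⟨_, _, o1, o2, ?_⟩
  rw [sub_eq_zero.1 hzero]
  exact o3

end Exp

end Claimed.Agent.R282
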