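import Claimed.Agent.R282.S2AB.AN2.Normal

/-!
# Row 282, package AN2, file 3: uniqueness of the dominant label (SP2), compactness (SP4 = K1), continuity of the label (SP5)

Architect: helper178.  Statements FROZEN; helper lemmas: prefix `an2u_`.  No paper.
LEAVES: L-AN2-U1 (`an2_count_sq`, `an2_antitone_unique`, `an2_dom_abs_antitone`, `an2_dom_nonneg`, `an2_abs_eq`), L-AN2-U2 (`an2_comm_sign`, `an2_stab_det`),
L-AN2-U3 (`an2_det_nonneg`), L-AN2-U4 (`an2_unique`), L-AN2-U5 (`an2_orb_closed`, `an2_moment_isClosed`, `an2_moment_closed`), L-AN2-U6 (`an2_label_continuous`).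

ROUTES.
* `an2_count_sq`.  `J(x')² + t = g (J(x)² + t) gᵀ` (`gᵀ g = 1`), `J(x)² + t • 1 = diagonal (t - (x p.1)²)` (`an2_J_mul`).  `g` is invertible, so the ranks agree (`Matrix.rank_mul_eq_left_of_isUnit_det`, `..right..`);
  `Matrix.rank_diagonal`: rank = number of `p : Ix n` with `t - (x p.1)² ≠ 0` = `2 * card {i | x i ^ 2 ≠ t}`; complement in `Fin n`.
* `an2_antitone_unique`.  The multisets `univ.val.map u`, `univ.val.map u'` have the same counts (`Multiset.ext`, `Multiset.count_map`), so `List.ofFn u ~ List.ofFn u'`; both lists are sorted for `≥`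
  (`List.pairwise_ofFn`/`List.sorted_ofFn`-type lemma); `List.Perm.eq_of_pairwise` (antisymmetry of `≥`) [old name `List.eq_of_perm_of_sorted`]; `List.ofFn_injective`.
* `an2_abs_eq`.  `u i := |x i|`, `|x i| = t ↔ x i ^ 2 = t ^ 2` for `t ≥ 0` (both counts are `0` for `t < 0`).
* `an2_comm_sign`.  `g J(x) = J(x) g` ⇒ `g` commutes with `J(x) J(x) = diagonal (-(x p.1)²)` ⇒ `g p q ((x p.1)² - (x q.1)²) = 0` ⇒ `g p q (|x p.1|⁻¹ - |x q.1|⁻¹) = 0` ⇒ `g` commutes with `Δ := diagonal (|x p.1|⁻¹)`;
  `J(x) Δ = Δ J(x) = J(x / |x|)` (entrywise).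
* `an2_det_nonneg`.  `φ : (Ix n → ℝ) ≃ₗ[ℝ] (Fin n → ℂ)`, `φ v i = v (i,0) - s i * I * v (i,1)` satisfies `φ (J(s) v) = I • φ v`.   `f := φ ∘ toLin' g ∘ φ⁻¹` is `ℝ`-linear and commutes with `I •`, hence is `fℂ.restrictScalars ℝ` for a `ℂ`-linear `fℂ`
  (`LinearMap.mk` with `map_smul'` from `z = a + b I`).  `det g = LinearMap.det (toLin' g)` (`LinearMap.det_toLin'`) `= LinearMap.det f` (`LinearMap.det_conj`) `= Algebra.norm ℝ (LinearMap.det fℂ)` (`LinearMap.det_restrictScalars`)
  `= Complex.normSq _ ≥ 0` (`Algebra.norm_complex_eq`/`Algebra.norm_complex_apply`).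
* `an2_stab_det`.  `g J(x) gᵀ = J(x)`, `gᵀ g = 1` ⇒ `g J(x) = J(x) g`; `an2_comm_sign`, `an2_det_nonneg` (`s i = x i / |x i|`, `s i ^ 2 = 1`), `an2_orth_det`.
* `an2_unique`.  `X = g J(x) gᵀ = g' J(x') g'ᵀ`, `k := g'ᵀ g ∈ SO`, `J(x') = k J(x) kᵀ`.   `an2_abs_eq`: `|x' i| = |x i|`.  If `i` is not the last index: `x i, x' i ≥ 0` (`an2_dom_nonneg`), so `x' i = x i`.
  Last index `l` (`n ≥ 1`): `x' l = x l` (done) or `x' l = - x l ≠ 0`.  Then `x i ≥ |x l| > 0` for `i < l`, so all `x i ≠ 0`, `x' = update x l (- x l)`, `J(x') = D J(x) Dᵀ` (`an2D_conj`), `m := Dᵀ k` is orthogonal, `m J(x) mᵀ = J(x)`, `det m = -1`: contradiction with `an2_stab_det`.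
* `an2_orb_closed`.  `{(g, X, x) | g ∈ SO ∧ X = g J(x) gᵀ}` is closed; projection along the compact set `SO` (`an2_so_isCompact`): e.g. sequences (`IsCompact.tendsto_subseq`, first countable) or `IsCompact.isClosedMap`-type lemmas (`isClosedMap_snd_of_compactSpace` on the subtype).
* `an2_moment_isClosed`: the same with `(g, h, k) ∈ SO³`.    `an2_moment_closed`: `(a, b, c) ∈ closure = set` (`Metric.mem_closure_iff`, sup metric on the product).
* `an2_label_continuous`.  By contradiction: `η = 1/(m+1)` gives `X'_m → X` (entrywise ⇒ in the product topology: `tendsto_pi_nhds`), `x'_m` dominant, `dist (x'_m) x ≥ ε`.  `2 ∑ (x'_m i)² = ∑∑ (X'_m p q)²` (`an2_orb_frob`) is bounded ⇒ `x'_m` bounded ⇒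
  convergent subsequence (`tendsto_subseq_of_bounded`) `→ x*`; `Dom x*` (`an2_dom_closed`), `An2Orb X x*` (`an2_orb_closed`), `x* = x` (`an2_unique`), but `dist x* x ≥ ε`.
-/

set_option autoImplicit false

namespace Claimed.Agent.R282

open Matrix

variable {n : ℕ}

theorem an2u_card_ix (P : Fin n → Prop) [DecidablePred P] :
    Fintype.card {p : Ix n // P p.1} = 2 * (Finset.univ.filter fun i => P i).card := by
  rw [Fintype.card_subtype]
  have e : (Finset.univ.filter fun p : Ix n => P p.1)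
      = (Finset.univ.filter fun i => P i) ×ˢ (Finset.univ : Finset (Fin 2)) := by
    ext p
    simp
  rw [e, Finset.card_product]
  simp [mul_comm]

theorem an2u_sq_diag (x : Vec n) (t : ℝ) :
    Jmat x * Jmat x + t • (1 : An2M n) = Matrix.diagonal (fun p : Ix n => t - (x p.1) ^ 2) := by
  rw [an2_J_mul, ← Matrix.diagonal_one, ← Matrix.diagonal_smul, Matrix.diagonal_add]
  congr 1
  funext p
  simp only [Pi.smul_apply, smul_eq_mul, mul_one]
  ring

theorem an2_count_sq (g : An2M n) (hg : g * g.transpose = 1) (x x' : Vec n)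
    (h : Jmat x' = g * Jmat x * g.transpose) (t : ℝ) :
    (Finset.univ.filter fun i => x' i ^ 2 = t).card = (Finset.univ.filter fun i => x i ^ 2 = t).card := by
  classical
  have hg' : g.transpose * g = 1 := mul_eq_one_comm.1 hg
  have h1 : Jmat x' * Jmat x' + t • (1 : An2M n)
      = g * (Jmat x * Jmat x + t • (1 : An2M n)) * g.transpose := by
    rw [h]
    have e1 : g * Jmat x * g.transpose * (g * Jmat x * g.transpose)
        = g * Jmat x * (g.transpose * g) * Jmat x * g.transpose := by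
      simp only [Matrix.mul_assoc]
    rw [e1, hg', Matrix.mul_one, Matrix.mul_add, Matrix.add_mul, Matrix.mul_smul, Matrix.smul_mul,
      Matrix.mul_one, hg]
    simp only [Matrix.mul_assoc]
  rw [an2u_sq_diag, an2u_sq_diag] at h1
  have h2 := congrArg Matrix.rank h1
  rw [Matrix.rank_mul_eq_left_of_isUnit_det _ _ (Matrix.isUnit_det_of_left_inverse hg),
    Matrix.rank_mul_eq_right_of_isUnit_det _ _ (Matrix.isUnit_det_of_right_inverse hg),
    Matrix.rank_diagonal, Matrix.rank_diagonal,
    an2u_card_ix (fun i => t - (x' i) ^ 2 ≠ 0), an2u_card_ix (fun i => t - (x i) ^ 2 ≠ 0)] at h2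
  have h3 : ∀ y : Vec n, (Finset.univ.filter fun i => y i ^ 2 = t).card
      + (Finset.univ.filter fun i => t - (y i) ^ 2 ≠ 0).card = n := by
    intro y
    have e : (Finset.univ.filter fun i => t - (y i) ^ 2 ≠ 0)
        = Finset.univ.filter fun i => ¬ (y i ^ 2 = t) := by
      apply Finset.filter_congr
      intro i _
      rw [ne_eq, sub_eq_zero, eq_comm]
    rw [e, Finset.card_filter_add_card_filter_not, Finset.card_univ, Fintype.card_fin]
  have h4 := h3 x
  have h5 := h3 x'
  omega

theorem an2_antitone_unique (u u' : Fin n → ℝ) (hu : Antitone u) (hu' : Antitone u')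
    (h : ∀ t : ℝ, (Finset.univ.filter fun i => u' i = t).card = (Finset.univ.filter fun i => u i = t).card) :
    u' = u := by
  classical
  have hm : (Finset.univ : Finset (Fin n)).val.map u' = (Finset.univ : Finset (Fin n)).val.map u := by
    rw [Multiset.ext]
    intro t
    rw [Multiset.count_map, Multiset.count_map]
    have h1 := h t
    rw [Finset.card_def, Finset.card_def, Finset.filter_val, Finset.filter_val] at h1
    have e : ∀ w : Fin n → ℝ, (Finset.univ : Finset (Fin n)).val.filter (fun a => t = w a)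
        = (Finset.univ : Finset (Fin n)).val.filter (fun a => w a = t) := by
      intro w
      apply Multiset.filter_congr
      intro a _
      exact eq_comm
    rw [e, e]
    exact h1
  rw [Fin.univ_val_map, Fin.univ_val_map, Multiset.coe_eq_coe] at hm
  have s1 : (List.ofFn u').Pairwise (· ≥ ·) := List.pairwise_ofFn.2 fun i j hij => hu' hij.le
  have s2 : (List.ofFn u).Pairwise (· ≥ ·) := List.pairwise_ofFn.2 fun i j hij => hu hij.le
  exact List.ofFn_injective (List.Perm.eq_of_pairwise' s1 s2 hm)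

theorem an2_dom_abs_antitone (x : Vec n) (hx : Dom x) : Antitone (fun i => |x i|) := by
  intro i j hij
  rcases hij.eq_or_lt with h | h
  · rw [h]
  · exact (hx i j h).trans (le_abs_self _)

theorem an2_dom_nonneg (x : Vec n) (hx : Dom x) {i j : Fin n} (hij : i < j) : 0 ≤ x i := by
  exact (abs_nonneg _).trans (hx i j hij)

theorem an2_abs_eq (g : An2M n) (hg : g * g.transpose = 1) (x x' : Vec n) (hx : Dom x) (hx' : Dom x')
    (h : Jmat x' = g * Jmat x * g.transpose) (i : Fin n) : |x' i| = |x i| := by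
  have key := an2_antitone_unique (fun i => |x i|) (fun i => |x' i|) (an2_dom_abs_antitone x hx)
    (an2_dom_abs_antitone x' hx') (by
      intro t
      by_cases ht : 0 ≤ t
      · have e : ∀ y : Vec n, (Finset.univ.filter fun i => |y i| = t)
            = Finset.univ.filter fun i => y i ^ 2 = t ^ 2 := by
          intro y
          apply Finset.filter_congr
          intro i _
          rw [sq_eq_sq_iff_abs_eq_abs, abs_of_nonneg ht]
        rw [e, e]
        exact an2_count_sq g hg x x' h (t ^ 2)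
      · have e : ∀ y : Vec n, (Finset.univ.filter fun i => |y i| = t) = ∅ := by
          intro y
          apply Finset.filter_false_of_mem
          intro i _ hi
          exact ht (hi ▸ abs_nonneg _)
        rw [e, e])
  exact congrFun key i

theorem an2u_J_diag_mul (x : Vec n) :
    Jmat x * Matrix.diagonal (fun p : Ix n => |x p.1|⁻¹) = Jmat (fun i => x i / |x i|) ∧
    Matrix.diagonal (fun p : Ix n => |x p.1|⁻¹) * Jmat x = Jmat (fun i => x i / |x i|) := by
  constructor
  · ext p q
    rw [Matrix.mul_diagonal]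
    unfold Jmat
    by_cases hpq : p.1 = q.1
    · rw [if_pos hpq, if_pos hpq, hpq]
      ring
    · rw [if_neg hpq, if_neg hpq, zero_mul]
  · ext p q
    rw [Matrix.diagonal_mul]
    unfold Jmat
    by_cases hpq : p.1 = q.1
    · rw [if_pos hpq, if_pos hpq]
      ring
    · rw [if_neg hpq, if_neg hpq, mul_zero]

theorem an2_comm_sign (x : Vec n) (hx : ∀ i, x i ≠ 0) (g : An2M n) (h : g * Jmat x = Jmat x * g) :
    g * Jmat (fun i => x i / |x i|) = Jmat (fun i => x i / |x i|) * g := by
  have h2 : g * (Jmat x * Jmat x) = (Jmat x * Jmat x) * g := by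
    rw [← Matrix.mul_assoc, h, Matrix.mul_assoc, h, Matrix.mul_assoc]
  rw [an2_J_mul] at h2
  have h3 : ∀ p q : Ix n, |x p.1| ≠ |x q.1| → g p q = 0 := by
    intro p q hpq
    have h4 := congrFun (congrFun h2 p) q
    rw [Matrix.mul_diagonal, Matrix.diagonal_mul] at h4
    have h5 : g p q * ((x p.1) ^ 2 - (x q.1) ^ 2) = 0 := by linear_combination h4
    rcases mul_eq_zero.1 h5 with h6 | h6
    · exact h6
    · exact absurd (sq_eq_sq_iff_abs_eq_abs _ _ |>.1 (sub_eq_zero.1 h6)) hpq
  have h4 : g * Matrix.diagonal (fun p : Ix n => |x p.1|⁻¹)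
      = Matrix.diagonal (fun p : Ix n => |x p.1|⁻¹) * g := by
    ext p q
    rw [Matrix.mul_diagonal, Matrix.diagonal_mul]
    by_cases hpq : |x p.1| = |x q.1|
    · rw [hpq, mul_comm]
    · rw [h3 p q hpq, zero_mul, mul_zero]
  calc g * Jmat (fun i => x i / |x i|)
      = g * (Jmat x * Matrix.diagonal (fun p : Ix n => |x p.1|⁻¹)) := by rw [(an2u_J_diag_mul x).1]
    _ = Jmat x * (g * Matrix.diagonal (fun p : Ix n => |x p.1|⁻¹)) := by
        rw [← Matrix.mul_assoc, h, Matrix.mul_assoc]
    _ = (Jmat x * Matrix.diagonal (fun p : Ix n => |x p.1|⁻¹)) * g := by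
        rw [h4, Matrix.mul_assoc]
    _ = _ := by rw [(an2u_J_diag_mul x).1]

theorem an2u_phi (s : Vec n) (hs : ∀ i, s i ^ 2 = 1) :
    ∃ φ : (Ix n → ℝ) ≃ₗ[ℝ] (Fin n → ℂ), ∀ v i, φ v i = ⟨v (i, 0), - s i * v (i, 1)⟩ := by
  refine ⟨{ toFun := fun v i => ⟨v (i, 0), - s i * v (i, 1)⟩
            map_add' := ?_
            map_smul' := ?_
            invFun := fun w p => if p.2 = 0 then (w p.1).re else - s p.1 * (w p.1).im
            left_inv := ?_
            right_inv := ?_ }, fun v i => rfl⟩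
  · intro v w
    funext i
    apply Complex.ext
    · simp
    · simp; ring
  · intro r v
    funext i
    apply Complex.ext
    · simp
    · simp; ring
  · intro v
    funext ⟨i, p⟩
    fin_cases p
    · simp
    · simp only [Fin.mk_one, one_ne_zero, if_false]
      linear_combination (v (i, 1)) * hs i
  · intro w
    funext i
    apply Complex.ext
    · simp
    · simp only [one_ne_zero, if_false]
      linear_combination ((w i).im) * hs i

theorem an2u_J_mulVec (s : Vec n) (v : Ix n → ℝ) (i : Fin n) :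
    (Jmat s *ᵥ v) (i, 0) = s i * v (i, 1) ∧ (Jmat s *ᵥ v) (i, 1) = - s i * v (i, 0) := by
  have h := an2_J_mul_apply s (Matrix.of fun p _ => v p) i (i, 0)
  simpa [Matrix.mul_apply, Matrix.mulVec, dotProduct] using h

/-- a real matrix commuting with a complex structure has nonnegative determinant -/
theorem an2_det_nonneg (s : Vec n) (hs : ∀ i, s i ^ 2 = 1) (g : An2M n) (h : g * Jmat s = Jmat s * g) :
    0 ≤ g.det := by
  obtain ⟨φ, hφ⟩ := an2u_phi s hs
  have hJ : ∀ v, φ (Matrix.toLin' (Jmat s) v) = Complex.I • φ v := by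
    intro v
    funext i
    rw [hφ, Pi.smul_apply, hφ, Matrix.toLin'_apply, (an2u_J_mulVec s v i).1, (an2u_J_mulVec s v i).2]
    apply Complex.ext
    · simp
    · simp only [smul_eq_mul, Complex.mul_im, Complex.I_re, Complex.I_im, zero_mul, one_mul, zero_add]
      linear_combination (v (i, 0)) * hs i
  obtain ⟨f, hf⟩ : ∃ f : (Fin n → ℂ) →ₗ[ℝ] (Fin n → ℂ),
      f = (φ : (Ix n → ℝ) →ₗ[ℝ] (Fin n → ℂ)) ∘ₗ Matrix.toLin' g ∘ₗ (φ.symm : (Fin n → ℂ) →ₗ[ℝ] (Ix n → ℝ)) :=
    ⟨_, rfl⟩
  have hfa : ∀ w, f w = φ (Matrix.toLin' g (φ.symm w)) := fun w => by rw [hf]; rfl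
  have hsymm : ∀ w, φ.symm (Complex.I • w) = Matrix.toLin' (Jmat s) (φ.symm w) := by
    intro w
    apply φ.injective
    rw [hJ, LinearEquiv.apply_symm_apply, LinearEquiv.apply_symm_apply]
  have hcomm : ∀ w, f (Complex.I • w) = Complex.I • f w := by
    intro w
    rw [hfa, hfa, hsymm, ← hJ, ← Matrix.toLin'_mul_apply, ← Matrix.toLin'_mul_apply, h]
  obtain ⟨fC, hfC⟩ : ∃ fC : (Fin n → ℂ) →ₗ[ℂ] (Fin n → ℂ), ∀ w, fC w = f w := by
    refine ⟨{ toFun := f, map_add' := f.map_add, map_smul' := ?_ }, fun w => rfl⟩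
    intro z w
    have e : ∀ u : Fin n → ℂ, z • u = z.re • u + z.im • (Complex.I • u) := by
      intro u
      funext i
      simp only [Pi.smul_apply, Pi.add_apply, smul_eq_mul, Complex.real_smul]
      conv_lhs => rw [← Complex.re_add_im z]
      ring
    simp only [RingHom.id_apply]
    rw [e w, e (f w), map_add, map_smul, map_smul, hcomm]
  have h1 : fC.restrictScalars ℝ = f := LinearMap.ext fun w => hfC w
  have h2 : LinearMap.det f = g.det := by
    rw [hf, LinearMap.det_conj, LinearMap.det_toLin']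
  have h3 := LinearMap.det_restrictScalars (R := ℝ) (f := fC)
  rw [h1, h2, Algebra.norm_complex_apply] at h3
  rw [h3]
  exact Complex.normSq_nonneg _

theorem an2_stab_det (x : Vec n) (hx : ∀ i, x i ≠ 0) (g : An2M n) (hg : g * g.transpose = 1)
    (h : g * Jmat x * g.transpose = Jmat x) : g.det = 1 := by
  have hg' : g.transpose * g = 1 := mul_eq_one_comm.1 hg
  have h1 : g * Jmat x = Jmat x * g := by
    calc g * Jmat x = g * Jmat x * (g.transpose * g) := by rw [hg', Matrix.mul_one]
      _ = (g * Jmat x * g.transpose) * g := by rw [Matrix.mul_assoc, Matrix.mul_assoc, Matrix.mul_assoc]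
      _ = Jmat x * g := by rw [h]
  have h2 := an2_comm_sign x hx g h1
  have h3 := an2_det_nonneg (fun i => x i / |x i|) (fun i => by
    have : |x i| ≠ 0 := abs_ne_zero.2 (hx i)
    rw [div_pow, sq_abs, div_self (pow_ne_zero 2 (hx i))]) g h2
  rcases an2_orth_det g hg with h4 | h4
  · exact h4
  · rw [h4] at h3
    linarith

/-- **SP2** -/
theorem an2_unique (X : An2M n) (x x' : Vec n) (hx : Dom x) (hx' : Dom x') (h : An2Orb X x)
    (h' : An2Orb X x') : x' = x := by
  obtain ⟨g, hg⟩ := h
  obtain ⟨g', hg'⟩ := h'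
  obtain ⟨k, hk⟩ : ∃ k : An2M n, k = g'.1.transpose * g.1 := ⟨_, rfl⟩
  have hkk : k * k.transpose = 1 := by
    rw [hk, Matrix.transpose_mul, Matrix.transpose_transpose]
    calc g'.1.transpose * g.1 * (g.1.transpose * g'.1)
        = g'.1.transpose * (g.1 * g.1.transpose) * g'.1 := by simp only [Matrix.mul_assoc]
      _ = 1 := by rw [an2_so_mul_transpose, Matrix.mul_one, an2_so_transpose_mul]
  have hkd : k.det = 1 := by
    rw [hk, Matrix.det_mul, Matrix.det_transpose, an2_so_det, an2_so_det, one_mul]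
  have hJ : Jmat x' = k * Jmat x * k.transpose := by
    rw [hk, Matrix.transpose_mul, Matrix.transpose_transpose]
    calc Jmat x' = (g'.1.transpose * g'.1) * Jmat x' * (g'.1.transpose * g'.1) := by
          rw [an2_so_transpose_mul, Matrix.one_mul, Matrix.mul_one]
      _ = g'.1.transpose * (g'.1 * Jmat x' * g'.1.transpose) * g'.1 := by simp only [Matrix.mul_assoc]
      _ = g'.1.transpose * (g.1 * Jmat x * g.1.transpose) * g'.1 := by rw [← hg', hg]
      _ = _ := by simp only [Matrix.mul_assoc]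
  have habs := an2_abs_eq k hkk x x' hx hx' hJ
  -- indices which are not the last one
  have hlt : ∀ i j : Fin n, i < j → x' i = x i := by
    intro i j hij
    have h1 := habs i
    rwa [abs_of_nonneg (an2_dom_nonneg x' hx' hij), abs_of_nonneg (an2_dom_nonneg x hx hij)] at h1
  by_contra hne
  obtain ⟨l, hl⟩ : ∃ l, x' l ≠ x l := by
    by_contra hcon
    push Not at hcon
    exact hne (funext hcon)
  have hlast : ∀ j : Fin n, j ≤ l := by
    intro j
    by_contra hj
    exact hl (hlt l j (not_le.1 hj))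
  have hneg : x' l = - x l := by
    rcases abs_eq_abs.1 (habs l) with h1 | h1
    · exact absurd h1 hl
    · exact h1
  have hxl : x l ≠ 0 := by
    intro h0
    apply hl
    rw [hneg, h0, neg_zero]
  have hall : ∀ i, x i ≠ 0 := by
    intro i
    rcases (hlast i).eq_or_lt with h1 | h1
    · rw [h1]; exact hxl
    · have h2 := hx i l h1
      have h3 : 0 < |x l| := abs_pos.2 hxl
      intro h0
      rw [h0] at h2
      linarith
  have hupd : x' = Function.update x l (- x l) := by
    funext i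
    by_cases hi : i = l
    · rw [hi, Function.update_self, hneg]
    · rw [Function.update_of_ne hi]
      exact hlt i l (lt_of_le_of_ne (hlast i) hi)
  have hD := an2D_orth l
  have hD' : (an2D l).transpose * an2D l = 1 := mul_eq_one_comm.1 hD
  obtain ⟨m, hm⟩ : ∃ m : An2M n, m = (an2D l).transpose * k := ⟨_, rfl⟩
  have hmm : m * m.transpose = 1 := by
    rw [hm, Matrix.transpose_mul, Matrix.transpose_transpose]
    calc (an2D l).transpose * k * (k.transpose * an2D l)
        = (an2D l).transpose * (k * k.transpose) * an2D l := by simp only [Matrix.mul_assoc]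
      _ = 1 := by rw [hkk, Matrix.mul_one, hD']
  have hstab : m * Jmat x * m.transpose = Jmat x := by
    rw [hm, Matrix.transpose_mul, Matrix.transpose_transpose]
    calc (an2D l).transpose * k * Jmat x * (k.transpose * an2D l)
        = (an2D l).transpose * (k * Jmat x * k.transpose) * an2D l := by simp only [Matrix.mul_assoc]
      _ = (an2D l).transpose * (an2D l * Jmat x * (an2D l).transpose) * an2D l := by
          rw [← hJ, hupd, an2D_conj]
      _ = ((an2D l).transpose * an2D l) * Jmat x * ((an2D l).transpose * an2D l) := by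
          simp only [Matrix.mul_assoc]
      _ = Jmat x := by rw [hD', Matrix.one_mul, Matrix.mul_one]
  have hdet := an2_stab_det x hall m hmm hstab
  rw [hm, Matrix.det_mul, Matrix.det_transpose, an2D_det, hkd] at hdet
  norm_num at hdet

theorem an2_orb_closed : IsClosed {p : An2M n × Vec n | An2Orb p.1 p.2} := by
  have : CompactSpace {g : An2M n | g ∈ Matrix.specialOrthogonalGroup (Ix n) ℝ} :=
    isCompact_iff_compactSpace.1 an2_so_isCompact
  have hC : IsClosed {q : {g : An2M n | g ∈ Matrix.specialOrthogonalGroup (Ix n) ℝ} × (An2M n × Vec n) |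
      q.2.1 = q.1.1 * Jmat q.2.2 * q.1.1.transpose} := by
    apply isClosed_eq
    · fun_prop
    · have h1 : Continuous fun q : {g : An2M n | g ∈ Matrix.specialOrthogonalGroup (Ix n) ℝ}
          × (An2M n × Vec n) => q.1.1 := by fun_prop
      have h2 : Continuous fun q : {g : An2M n | g ∈ Matrix.specialOrthogonalGroup (Ix n) ℝ}
          × (An2M n × Vec n) => Jmat q.2.2 := an2_J_continuous.comp (by fun_prop)
      exact (h1.matrix_mul h2).matrix_mul h1.matrix_transpose
  have h := isClosedMap_snd_of_compactSpace _ hC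
  have e : {p : An2M n × Vec n | An2Orb p.1 p.2} = Prod.snd '' {q : {g : An2M n |
      g ∈ Matrix.specialOrthogonalGroup (Ix n) ℝ} × (An2M n × Vec n) |
      q.2.1 = q.1.1 * Jmat q.2.2 * q.1.1.transpose} := by
    ext p
    constructor
    · rintro ⟨g, hg⟩
      exact ⟨(⟨g.1, g.2⟩, p), hg, rfl⟩
    · rintro ⟨q, hq, rfl⟩
      exact ⟨⟨q.1.1, q.1.2⟩, hq⟩
  rw [e]; exact h

theorem an2_moment_isClosed : IsClosed {p : Vec n × Vec n × Vec n | MomentD p.1 p.2.1 p.2.2} := by
  have : CompactSpace {g : An2M n | g ∈ Matrix.specialOrthogonalGroup (Ix n) ℝ} :=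
    isCompact_iff_compactSpace.1 an2_so_isCompact
  obtain ⟨K, hK⟩ : ∃ K : Set (An2M n), K = {g : An2M n | g ∈ Matrix.specialOrthogonalGroup (Ix n) ℝ} :=
    ⟨_, rfl⟩
  have : CompactSpace K := by rw [hK]; infer_instance
  have hKm : ∀ g : An2M n, g ∈ K ↔ g ∈ Matrix.specialOrthogonalGroup (Ix n) ℝ := by
    intro g; rw [hK]; rfl
  have hC : IsClosed {q : (K × K × K) × (Vec n × Vec n × Vec n) |
      q.1.1.1 * Jmat q.2.1 * q.1.1.1.transpose + q.1.2.1.1 * Jmat q.2.2.1 * q.1.2.1.1.transpose
        = q.1.2.2.1 * Jmat q.2.2.2 * q.1.2.2.1.transpose} := by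
    have g1 : Continuous fun q : (K × K × K) × (Vec n × Vec n × Vec n) => q.1.1.1 := by fun_prop
    have g2 : Continuous fun q : (K × K × K) × (Vec n × Vec n × Vec n) => q.1.2.1.1 := by fun_prop
    have g3 : Continuous fun q : (K × K × K) × (Vec n × Vec n × Vec n) => q.1.2.2.1 := by fun_prop
    have j1 : Continuous fun q : (K × K × K) × (Vec n × Vec n × Vec n) => Jmat q.2.1 :=
      an2_J_continuous.comp (by fun_prop)
    have j2 : Continuous fun q : (K × K × K) × (Vec n × Vec n × Vec n) => Jmat q.2.2.1 :=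
      an2_J_continuous.comp (by fun_prop)
    have j3 : Continuous fun q : (K × K × K) × (Vec n × Vec n × Vec n) => Jmat q.2.2.2 :=
      an2_J_continuous.comp (by fun_prop)
    apply isClosed_eq
    · exact ((g1.matrix_mul j1).matrix_mul g1.matrix_transpose).add
        ((g2.matrix_mul j2).matrix_mul g2.matrix_transpose)
    · exact (g3.matrix_mul j3).matrix_mul g3.matrix_transpose
  have h := isClosedMap_snd_of_compactSpace _ hC
  have e : {p : Vec n × Vec n × Vec n | MomentD p.1 p.2.1 p.2.2}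
      = Prod.snd '' {q : (K × K × K) × (Vec n × Vec n × Vec n) |
      q.1.1.1 * Jmat q.2.1 * q.1.1.1.transpose + q.1.2.1.1 * Jmat q.2.2.1 * q.1.2.1.1.transpose
        = q.1.2.2.1 * Jmat q.2.2.2 * q.1.2.2.1.transpose} := by
    ext p
    constructor
    · rintro ⟨g, h, k, hg⟩
      exact ⟨((⟨g.1, (hKm _).2 g.2⟩, ⟨h.1, (hKm _).2 h.2⟩, ⟨k.1, (hKm _).2 k.2⟩), p), hg, rfl⟩
    · rintro ⟨q, hq, rfl⟩
      exact ⟨⟨q.1.1.1, (hKm _).1 q.1.1.2⟩, ⟨q.1.2.1.1, (hKm _).1 q.1.2.1.2⟩,
        ⟨q.1.2.2.1, (hKm _).1 q.1.2.2.2⟩, hq⟩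
  rw [e]; exact h

/-- **K1** -/
theorem an2_moment_closed (a b c : Vec n)
    (h : ∀ ε > 0, ∃ a' b' c' : Vec n, dist a' a < ε ∧ dist b' b < ε ∧ dist c' c < ε ∧ MomentD a' b' c') :
    MomentD a b c := by
  have hmem : (a, b, c) ∈ closure {p : Vec n × Vec n × Vec n | MomentD p.1 p.2.1 p.2.2} := by
    rw [Metric.mem_closure_iff]
    intro ε hε
    obtain ⟨a', b', c', ha, hb, hc, hm⟩ := h ε hε
    refine ⟨(a', b', c'), hm, ?_⟩
    rw [Prod.dist_eq, Prod.dist_eq]
    simp only
    rw [dist_comm a, dist_comm b, dist_comm c]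
    exact max_lt ha (max_lt hb hc)
  rw [an2_moment_isClosed.closure_eq] at hmem
  exact hmem

/-- **SP5** -/
theorem an2_label_continuous (X : An2M n) (x : Vec n) (hx : Dom x) (h : An2Orb X x) (ε : ℝ) (hε : 0 < ε) :
    ∃ η > 0, ∀ (X' : An2M n) (x' : Vec n), Dom x' → An2Orb X' x' → (∀ p q, |X' p q - X p q| < η) →
      dist x' x < ε := by
  by_contra hcon
  push Not at hcon
  have hpos : ∀ m : ℕ, (0 : ℝ) < 1 / ((m : ℝ) + 1) := fun m => by positivity
  choose X' x' hD hO hX hd using fun m : ℕ => hcon (1 / ((m : ℝ) + 1)) (hpos m)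
  -- convergence of `X'`
  have hXlim : Filter.Tendsto X' Filter.atTop (nhds X) := by
    refine tendsto_pi_nhds.2 fun p => tendsto_pi_nhds.2 fun q => ?_
    rw [tendsto_iff_dist_tendsto_zero]
    refine squeeze_zero (fun m => dist_nonneg) (fun m => ?_) tendsto_one_div_add_atTop_nhds_zero_nat
    rw [Real.dist_eq]
    exact (hX m p q).le
  -- boundedness of `x'`
  obtain ⟨B, hB⟩ : ∃ B : ℝ, B = ∑ p, ∑ q, (|X p q| + 1) ^ 2 := ⟨_, rfl⟩
  have hB0 : 0 ≤ B := by rw [hB]; positivity
  have hbd : ∀ m, x' m ∈ Metric.closedBall (0 : Vec n) (1 + B) := by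
    intro m
    rw [mem_closedBall_zero_iff, pi_norm_le_iff_of_nonneg (by linarith)]
    intro i
    have h1 : 2 * ∑ j, (x' m j) ^ 2 ≤ B := by
      rw [← an2_orb_frob (hO m), hB]
      refine Finset.sum_le_sum fun p _ => Finset.sum_le_sum fun q _ => ?_
      have h2 : |X' m p q| ≤ |X p q| + 1 := by
        have h3 := hX m p q
        have h4 : 1 / ((m : ℝ) + 1) ≤ 1 := by
          rw [div_le_one (by positivity)]
          have : (0 : ℝ) ≤ m := Nat.cast_nonneg m
          linarith
        have h5 : |X' m p q| ≤ |X' m p q - X p q| + |X p q| := by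
          have := abs_add_le (X' m p q - X p q) (X p q)
          simpa using this
        linarith
      rw [← sq_abs (X' m p q)]
      exact pow_le_pow_left₀ (abs_nonneg _) h2 2
    have h2 : (x' m i) ^ 2 ≤ ∑ j, (x' m j) ^ 2 :=
      Finset.single_le_sum (f := fun j => (x' m j) ^ 2) (fun j _ => sq_nonneg _) (Finset.mem_univ i)
    have h3 : 0 ≤ ∑ j, (x' m j) ^ 2 := Finset.sum_nonneg fun j _ => sq_nonneg _
    rw [Real.norm_eq_abs]
    have h4 : |x' m i| ≤ 1 + |x' m i| ^ 2 := by nlinarith [sq_nonneg (|x' m i| - 1), abs_nonneg (x' m i)]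
    rw [sq_abs] at h4
    linarith
  obtain ⟨y, -, φ, hφ, hy⟩ := tendsto_subseq_of_bounded Metric.isBounded_closedBall hbd
  have hyD : Dom y := an2_dom_closed.mem_of_tendsto hy (Filter.Eventually.of_forall fun m => hD (φ m))
  have hyO : An2Orb X y := by
    have h1 : Filter.Tendsto (fun m => (X' (φ m), x' (φ m))) Filter.atTop (nhds (X, y)) :=
      (hXlim.comp hφ.tendsto_atTop).prodMk_nhds hy
    exact an2_orb_closed.mem_of_tendsto h1 (Filter.Eventually.of_forall fun m => hO (φ m))
  have hyx : y = x := an2_unique X x y hx hyD h hyO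
  have h1 : Filter.Tendsto (fun m => dist (x' (φ m)) x) Filter.atTop (nhds (dist y x)) :=
    hy.dist tendsto_const_nhds
  have h2 : ε ≤ dist y x := ge_of_tendsto' h1 fun m => hd (φ m)
  rw [hyx, dist_self] at h2
  linarith

end Claimed.Agent.R282
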